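import Mathlib
import Vale.Agent.P078.General.Basic

/-!
# Finite columns in a von Neumann algebra which spread a positive element over its central support

For `b ≥ 0` nonzero in `M` there are `δ > 0`, a central projection `z ≠ 0` and, for finitely many
vectors, finite columns `m` in `M` of norm one such that `∑ mᵢ* b mᵢ` is almost above `δ z` there.
-/

open scoped InnerProductSpace
open Vale.Agent.P078.General (mem_vna_of_commute commute_of_mem_centralizer starProjection_commute)

namespace Vale.Agent.P082.CB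

universe u

variable {H : Type u} [NormedAddCommGroup H] [InnerProductSpace ℂ H] [CompleteSpace H]
variable {M : VonNeumannAlgebra H}

noncomputable section

lemma cfc_mem_vna (g : ℝ → ℝ) {a : H →L[ℂ] H} (ha : a ∈ M) : cfc g a ∈ M :=
  mem_vna_of_commute fun _ hy =>
    ((Commute.cfc_real (commute_of_mem_centralizer ha hy).symm g).symm).eq

lemma inner_cfc_nonneg {a : H →L[ℂ] H} (g : ℝ → ℝ) (hg : ∀ x ∈ spectrum ℝ a, 0 ≤ g x) (v : H) :
    0 ≤ (⟪v, cfc g a v⟫_ℂ).re := by
  have h : 0 ≤ cfc g a := cfc_nonneg hg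
  rw [ContinuousLinearMap.nonneg_iff_isPositive] at h
  have := h.re_inner_nonneg_right v
  simpa using this

lemma isPositive_of_re {a : H →L[ℂ] H} (ha : IsSelfAdjoint a)
    (h : ∀ v, 0 ≤ (⟪v, a v⟫_ℂ).re) : a.IsPositive :=
  ⟨ha.isSymmetric, fun v => by
    rw [ContinuousLinearMap.reApplyInnerSelf_apply, ← inner_conj_symm, RCLike.re_to_complex,
      Complex.conj_re]
    exact h v⟩

/-- The cut of a nonzero positive element. -/
theorem exists_cut_elem {b : H →L[ℂ] H} (hb : b ∈ M) (hsa : IsSelfAdjoint b)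
    (hpos : ∀ v, 0 ≤ (⟪v, b v⟫_ℂ).re) (h0 : b ≠ 0) :
    ∃ δ > (0 : ℝ), ∃ q ∈ M, IsSelfAdjoint q ∧ q ≠ 0 ∧
      ∀ v, δ * ‖q v‖ ^ 2 ≤ (⟪q v, b (q v)⟫_ℂ).re := by
  have hspec : ∀ x ∈ spectrum ℝ b, 0 ≤ x := fun x hx => spectrum_nonneg_of_nonneg
    ((ContinuousLinearMap.nonneg_iff_isPositive b).2 (isPositive_of_re hsa hpos)) hx
  set δ : ℝ := ‖b‖ / 2 with hδ
  have hδ0 : 0 < δ := half_pos (norm_pos_iff.2 h0)
  set q := cfc (fun x : ℝ => max (x - δ) 0) b with hq
  have hqsa : IsSelfAdjoint q := cfc_predicate _ b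
  refine ⟨δ, hδ0, q, cfc_mem_vna _ hb, hqsa, fun hq0 => ?_, fun v => ?_⟩
  · have hsmall : ∀ x ∈ spectrum ℝ b, x ≤ δ := by
      intro x hx
      have h1 : max (x - δ) 0 ∈ spectrum ℝ q := by
        rw [hq, cfc_map_spectrum (fun x : ℝ => max (x - δ) 0) b]
        exact ⟨x, hx, rfl⟩
      rw [hq0] at h1
      rcases subsingleton_or_nontrivial H with hH | hH
      · exact absurd (Subsingleton.elim b 0) h0
      · rw [spectrum.zero_eq, Set.mem_singleton_iff] at h1
        linarith [le_max_left (x - δ) 0]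
    have : ‖b‖ ≤ δ := by
      conv_lhs => rw [← cfc_id ℝ b]
      exact norm_cfc_le hδ0.le fun x hx => by
        rw [id, Real.norm_eq_abs, abs_of_nonneg (hspec x hx)]
        exact hsmall x hx
    linarith [norm_pos_iff.2 h0]
  · have h := inner_cfc_nonneg (a := b)
      (fun x : ℝ => max (x - δ) 0 * (x - δ) * max (x - δ) 0) (fun x _ => ?_) v
    · have he : cfc (fun x : ℝ => max (x - δ) 0 * (x - δ) * max (x - δ) 0) b =
          q * (b - algebraMap ℝ _ δ) * q := by
        rw [cfc_mul (fun x : ℝ => max (x - δ) 0 * (x - δ)) (fun x : ℝ => max (x - δ) 0) b,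
          cfc_mul (fun x : ℝ => max (x - δ) 0) (fun x : ℝ => x - δ) b,
          cfc_sub (fun x : ℝ => x) (fun _ : ℝ => δ) b, cfc_id' ℝ b, cfc_const δ b]
      rw [he, mul_apply_eq_comp, mul_apply_eq_comp, ← hqsa.star_eq,
        ContinuousLinearMap.star_eq_adjoint, ContinuousLinearMap.adjoint_inner_right] at h
      rw [← ContinuousLinearMap.star_eq_adjoint, hqsa.star_eq] at h
      rw [Algebra.algebraMap_eq_smul_one, sub_apply, smul_apply, one_apply_eq_self,
        inner_sub_right, inner_smul_right_eq_smul, inner_self_eq_norm_sq_to_K] at h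
      simp [← Complex.ofReal_pow] at h
      linarith
    · rcases le_total (x - δ) 0 with hx | hx
      · rw [max_eq_right hx]; simp
      · rw [max_eq_left hx]; positivity

/-- The central support of a self-adjoint element. -/
theorem exists_central_support {q : H →L[ℂ] H} (hq : q ∈ M) (_hsa : IsSelfAdjoint q) :
    ∃ z ∈ M, (∀ x ∈ M, x * z = z * x) ∧ IsStarProjection z ∧ z * q = q ∧
      ∀ η, ∀ γ : ℝ, 0 < γ → ∃ (n : ℕ) (a : Fin n → (H →L[ℂ] H)) (w : Fin n → H),
        (∀ i, a i ∈ M) ∧ ‖z η - ∑ i, a i (q (w i))‖ < γ := by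
  set S : Set H := {v | ∃ a ∈ M, ∃ w, v = a (q w)} with hS
  set V : Submodule ℂ H := (Submodule.span ℂ S).topologicalClosure with hV
  have : CompleteSpace V := Submodule.topologicalClosure.completeSpace _
  have hinv : ∀ y : H →L[ℂ] H, Set.MapsTo y S S → ∀ k ∈ V, y k ∈ V := by
    intro y hy k hk
    have hspan : Set.MapsTo y (Submodule.span ℂ S : Set H) (Submodule.span ℂ S : Set H) := by
      intro v hv
      induction hv using Submodule.span_induction with
      | mem v hv => exact Submodule.subset_span (hy hv)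
      | zero => simp
      | add u v _ _ hu hv => simpa using add_mem hu hv
      | smul c v _ hv => simpa using Submodule.smul_mem _ c hv
    exact hspan.closure y.continuous hk
  have hM : ∀ x ∈ M, Set.MapsTo x S S := by
    rintro x hx _ ⟨a, ha, w, rfl⟩
    exact ⟨x * a, mul_mem hx ha, w, rfl⟩
  have hM' : ∀ y ∈ Set.centralizer (M : Set (H →L[ℂ] H)), Set.MapsTo y S S := by
    rintro y hy _ ⟨a, ha, w, rfl⟩
    refine ⟨a, ha, y w, ?_⟩
    exact (DFunLike.congr_fun (commute_of_mem_centralizer ha hy) (q w)).trans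
      (congrArg a (DFunLike.congr_fun (commute_of_mem_centralizer hq hy) w))
  have hstar : ∀ y ∈ Set.centralizer (M : Set (H →L[ℂ] H)),
      star y ∈ Set.centralizer (M : Set (H →L[ℂ] H)) := fun y hy x hx => by
    have := congrArg star (hy (star x) (star_mem hx))
    simpa [star_mul] using this.symm
  refine ⟨V.starProjection, mem_vna_of_commute fun y hy => starProjection_commute V y
    (hinv y (hM' y hy)) (hinv _ (hM' _ (hstar y hy))), fun x hx => starProjection_commute V x
    (hinv x (hM x hx)) (hinv _ (hM _ (star_mem hx))), isStarProjection_starProjection,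
    ?_, fun η γ hγ => ?_⟩
  · refine ContinuousLinearMap.ext fun w => ?_
    rw [mul_apply_eq_comp, Submodule.starProjection_eq_self_iff]
    exact Submodule.le_topologicalClosure _
      (Submodule.subset_span ⟨1, one_mem M, w, (one_apply_eq_self _).symm⟩)
  · have hmem : V.starProjection η ∈ closure (Submodule.span ℂ S : Set H) :=
      V.starProjection_apply_mem η
    obtain ⟨v, hv, hd⟩ := Metric.mem_closure_iff.1 hmem γ hγ
    rw [dist_eq_norm] at hd
    obtain ⟨n, c, g, rfl⟩ := Submodule.mem_span_set'.1 hv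
    choose a ha w hw using fun i => (g i).2
    refine ⟨n, fun i => c i • a i, w, fun i => M.toStarSubalgebra.smul_mem (ha i) (c i), ?_⟩
    simpa only [smul_apply, ← hw] using hd

/-- Finite columns spreading `b` over `z`. -/
theorem exists_column {b q z : H →L[ℂ] H} {δ : ℝ} (hδ : 0 < δ) (hq : q ∈ M)
    (hqsa : IsSelfAdjoint q) (hbpos : ∀ v, 0 ≤ (⟪v, b v⟫_ℂ).re)
    (hbq : ∀ v, δ * ‖q v‖ ^ 2 ≤ (⟪q v, b (q v)⟫_ℂ).re)
    (hzc : ∀ x ∈ M, x * z = z * x) (hzp : IsStarProjection z) (hzq : z * q = q)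
    (happ : ∀ η, ∀ γ : ℝ, 0 < γ → ∃ (n : ℕ) (a : Fin n → (H →L[ℂ] H)) (w : Fin n → H),
      (∀ i, a i ∈ M) ∧ ‖z η - ∑ i, a i (q (w i))‖ < γ)
    {r : ℕ} (η : Fin r → H) {γ : ℝ} (hγ : 0 < γ) :
    ∃ (n : ℕ) (m : Fin n → (H →L[ℂ] H)), (∀ i, m i ∈ M) ∧
      (∀ v, ∑ i, ‖m i v‖ ^ 2 = ‖v‖ ^ 2) ∧
      ∀ j, δ * (⟪η j, z (η j)⟫_ℂ).re - γ ≤ ∑ i, (⟪m i (η j), b (m i (η j))⟫_ℂ).re := by
  set B : ℝ := ∑ j, ‖η j‖ + 1 with hB
  have hB0 : 0 < B := by positivity
  have hηB : ∀ j, ‖η j‖ ≤ B := fun j => by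
    have := Finset.single_le_sum (f := fun i => ‖η i‖) (fun i _ => norm_nonneg _)
      (Finset.mem_univ j)
    linarith
  set γ' : ℝ := γ / (4 * δ * B) with hγ'
  have hγ'0 : 0 < γ' := by positivity
  choose N a w ha hw using fun j => happ (η j) γ' hγ'0
  let ι := Σ j, Fin (N j)
  let e := (Fintype.equivFin ι).symm
  let n := Fintype.card ι
  let v : Fin n → (H →L[ℂ] H) := fun i => q * star (a (e i).1 (e i).2)
  have hvM : ∀ i, v i ∈ M := fun i => mul_mem hq (star_mem (ha _ _))
  set t : H →L[ℂ] H := ∑ i, star (v i) * v i with ht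
  have htM : t ∈ M := sum_mem fun i _ => mul_mem (star_mem (hvM i)) (hvM i)
  have htsa : IsSelfAdjoint t := by
    rw [ht]
    exact isSelfAdjoint_sum _ fun i _ => IsSelfAdjoint.star_mul_self (v i)
  have hinner : ∀ x, (⟪x, t x⟫_ℂ).re = ∑ i, ‖v i x‖ ^ 2 := by
    intro x
    simp only [ht, sum_apply, inner_sum, Complex.re_sum, mul_apply_eq_comp,
      ContinuousLinearMap.star_eq_adjoint, ContinuousLinearMap.adjoint_inner_right,
      inner_self_eq_norm_sq_to_K]
    simp [← Complex.ofReal_pow]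
  have htpos : ∀ x, 0 ≤ (⟪x, t x⟫_ℂ).re := fun x => by
    rw [hinner]; exact Finset.sum_nonneg fun i _ => sq_nonneg _
  have hspec : ∀ x ∈ spectrum ℝ t, 0 ≤ x := fun x hx => spectrum_nonneg_of_nonneg
    ((ContinuousLinearMap.nonneg_iff_isPositive t).2 (isPositive_of_re htsa htpos)) hx
  set W : ℝ := ∑ i, ‖w (e i).1 (e i).2‖ ^ 2 + 1 with hW
  have hW0 : 0 < W := by positivity
  set ε : ℝ := (γ' / (B * (W + n))) ^ 2 with hε
  have hε0 : 0 < ε := by positivity
  have hne : ∀ x ∈ spectrum ℝ t, x + ε ≠ 0 := fun x hx => by linarith [hspec x hx]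
  have hsqne : ∀ x ∈ spectrum ℝ t, Real.sqrt (x + ε) ≠ 0 := fun x hx =>
    (Real.sqrt_pos.2 (by linarith [hspec x hx])).ne'
  have hc1 : ContinuousOn (fun x : ℝ => (Real.sqrt (x + ε))⁻¹) (spectrum ℝ t) :=
    ContinuousOn.inv₀ (by fun_prop) hsqne
  have hc2 : ContinuousOn (fun x : ℝ => Real.sqrt (ε / (x + ε))) (spectrum ℝ t) :=
    Real.continuous_sqrt.comp_continuousOn (ContinuousOn.div continuousOn_const (by fun_prop) hne)
  set c := cfc (fun x : ℝ => (Real.sqrt (x + ε))⁻¹) t with hc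
  set d := cfc (fun x : ℝ => Real.sqrt (ε / (x + ε))) t with hd
  have hcsa : IsSelfAdjoint c := cfc_predicate _ t
  have hdsa : IsSelfAdjoint d := cfc_predicate _ t
  have hone : c * t * c + d * d = 1 := by
    have h1 : c * t * c + d * d = cfc (fun x : ℝ => (Real.sqrt (x + ε))⁻¹ * x *
        (Real.sqrt (x + ε))⁻¹ + Real.sqrt (ε / (x + ε)) * Real.sqrt (ε / (x + ε))) t := by
      have hcx : ContinuousOn (fun x : ℝ => (Real.sqrt (x + ε))⁻¹ * x) (spectrum ℝ t) :=
        hc1.mul continuousOn_id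
      have hcc : ContinuousOn (fun x : ℝ => (Real.sqrt (x + ε))⁻¹ * x * (Real.sqrt (x + ε))⁻¹)
          (spectrum ℝ t) := hcx.mul hc1
      have hdd : ContinuousOn (fun x : ℝ => Real.sqrt (ε / (x + ε)) * Real.sqrt (ε / (x + ε)))
          (spectrum ℝ t) := hc2.mul hc2
      rw [cfc_add (a := t) (fun x : ℝ => (Real.sqrt (x + ε))⁻¹ * x * (Real.sqrt (x + ε))⁻¹)
          (fun x : ℝ => Real.sqrt (ε / (x + ε)) * Real.sqrt (ε / (x + ε))) hcc hdd,
        cfc_mul (fun x : ℝ => (Real.sqrt (x + ε))⁻¹ * x) (fun x : ℝ => (Real.sqrt (x + ε))⁻¹) t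
          hcx hc1,
        cfc_mul (fun x : ℝ => (Real.sqrt (x + ε))⁻¹) (fun x : ℝ => x) t hc1 continuousOn_id,
        cfc_mul (fun x : ℝ => Real.sqrt (ε / (x + ε))) (fun x : ℝ => Real.sqrt (ε / (x + ε))) t
          hc2 hc2, cfc_id' ℝ t]
    rw [h1, ← cfc_const_one ℝ t]
    refine cfc_congr fun x hx => ?_
    have hxe : 0 < x + ε := by linarith [hspec x hx]
    show (Real.sqrt (x + ε))⁻¹ * x * (Real.sqrt (x + ε))⁻¹ +
      Real.sqrt (ε / (x + ε)) * Real.sqrt (ε / (x + ε)) = 1
    rw [Real.mul_self_sqrt (by positivity), mul_right_comm, ← mul_inv,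
      Real.mul_self_sqrt hxe.le]
    field_simp
  have hdt : ∀ x, (⟪d (d x), t (d (d x))⟫_ℂ).re ≤ ε * ‖x‖ ^ 2 := by
    intro x
    have h1 : d * d * t * (d * d) = cfc (fun y : ℝ => Real.sqrt (ε / (y + ε)) *
        Real.sqrt (ε / (y + ε)) * y * (Real.sqrt (ε / (y + ε)) * Real.sqrt (ε / (y + ε)))) t := by
      have hdd : ContinuousOn (fun x : ℝ => Real.sqrt (ε / (x + ε)) * Real.sqrt (ε / (x + ε)))
          (spectrum ℝ t) := hc2.mul hc2
      have hddx : ContinuousOn (fun x : ℝ => Real.sqrt (ε / (x + ε)) * Real.sqrt (ε / (x + ε)) * x)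
          (spectrum ℝ t) := hdd.mul continuousOn_id
      rw [cfc_mul (fun y : ℝ => Real.sqrt (ε / (y + ε)) * Real.sqrt (ε / (y + ε)) * y)
          (fun y : ℝ => Real.sqrt (ε / (y + ε)) * Real.sqrt (ε / (y + ε))) t hddx hdd,
        cfc_mul (fun y : ℝ => Real.sqrt (ε / (y + ε)) * Real.sqrt (ε / (y + ε))) (fun y : ℝ => y) t
          hdd continuousOn_id,
        cfc_mul (fun y : ℝ => Real.sqrt (ε / (y + ε))) (fun y : ℝ => Real.sqrt (ε / (y + ε))) t
          hc2 hc2, cfc_id' ℝ t]
    have h2 : ‖d * d * t * (d * d)‖ ≤ ε := by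
      rw [h1]
      refine norm_cfc_le hε0.le fun y hy => ?_
      have hye : 0 < y + ε := by linarith [hspec y hy]
      rw [Real.mul_self_sqrt (by positivity), Real.norm_eq_abs,
        abs_of_nonneg (mul_nonneg (mul_nonneg (by positivity) (hspec y hy)) (by positivity))]
      have h4 : ε / (y + ε) ≤ 1 := by rw [div_le_one hye]; linarith [hspec y hy]
      calc ε / (y + ε) * y * (ε / (y + ε)) ≤ ε / (y + ε) * y * 1 :=
            mul_le_mul_of_nonneg_left h4 (mul_nonneg (by positivity) (hspec y hy))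
        _ ≤ ε := by
            rw [mul_one, div_mul_eq_mul_div, div_le_iff₀ hye]
            nlinarith [hspec y hy]
    have h3 : (⟪x, (d * d * t * (d * d)) x⟫_ℂ).re ≤ ε * ‖x‖ ^ 2 := by
      refine (Complex.re_le_norm _).trans ((norm_inner_le_norm _ _).trans ?_)
      calc ‖x‖ * ‖(d * d * t * (d * d)) x‖ ≤ ‖x‖ * (ε * ‖x‖) :=
            mul_le_mul_of_nonneg_left ((ContinuousLinearMap.le_opNorm _ _).trans
              (mul_le_mul_of_nonneg_right h2 (norm_nonneg _))) (norm_nonneg _)
        _ = ε * ‖x‖ ^ 2 := by ring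
    simp only [mul_apply_eq_comp] at h3
    rw [← ContinuousLinearMap.adjoint_inner_left, ← ContinuousLinearMap.adjoint_inner_left,
      ← ContinuousLinearMap.star_eq_adjoint, hdsa.star_eq] at h3
    exact h3
  refine ⟨n + 1, Fin.snoc (fun i => v i * c) d, fun i => ?_, fun x => ?_, fun j => ?_⟩
  · induction i using Fin.lastCases with
    | last => rw [Fin.snoc_last]; exact cfc_mem_vna _ htM
    | cast i => rw [Fin.snoc_castSucc]; exact mul_mem (hvM i) (cfc_mem_vna _ htM)
  · rw [Fin.sum_univ_castSucc]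
    simp only [Fin.snoc_castSucc, Fin.snoc_last, mul_apply_eq_comp, ← hinner]
    have h := congrArg (fun u : H →L[ℂ] H => (⟪x, u x⟫_ℂ).re) hone
    simp only [add_apply, mul_apply_eq_comp, one_apply_eq_self, inner_add_right,
      Complex.add_re] at h
    rw [← ContinuousLinearMap.adjoint_inner_left, ← ContinuousLinearMap.star_eq_adjoint,
      hcsa.star_eq] at h
    rw [← ContinuousLinearMap.adjoint_inner_left d, ← ContinuousLinearMap.star_eq_adjoint,
      hdsa.star_eq, inner_self_eq_norm_sq_to_K, inner_self_eq_norm_sq_to_K] at h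
    simpa [← Complex.ofReal_pow] using h
  · rw [Fin.sum_univ_castSucc]
    simp only [Fin.snoc_castSucc, Fin.snoc_last]
    have hb1 : δ * ∑ i, ‖v i (c (η j))‖ ^ 2 ≤
        ∑ i, (⟪(v i * c) (η j), b ((v i * c) (η j))⟫_ℂ).re := by
      rw [Finset.mul_sum]
      refine Finset.sum_le_sum fun i _ => ?_
      simp only [v, mul_apply_eq_comp]
      exact hbq _
    have hb2 := hbpos (d (η j))
    have hzt : z * t = t := by
      rw [ht, Finset.mul_sum]
      refine Finset.sum_congr rfl fun i _ => ?_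
      simp only [v, star_mul, star_star, hqsa.star_eq]
      rw [mul_assoc (a (e i).1 (e i).2), ← mul_assoc z, ← hzc _ (ha _ _), mul_assoc (a _ _),
        ← mul_assoc z q, hzq]
    have hztc : z * (c * t * c) = c * t * c := by
      rw [mul_assoc c t c, ← mul_assoc z c, ← hzc c (cfc_mem_vna _ htM), mul_assoc c z,
        ← mul_assoc z t c, hzt]
    have hs : ∑ i, ‖v i (c (η j))‖ ^ 2 =
        (⟪η j, z (η j)⟫_ℂ).re - (⟪η j, (d * d) (z (η j))⟫_ℂ).re := by
      rw [← hinner, ← hcsa.star_eq, ContinuousLinearMap.star_eq_adjoint,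
        ContinuousLinearMap.adjoint_inner_left, ← ContinuousLinearMap.star_eq_adjoint,
        hcsa.star_eq]
      have h : c * t * c = z - d * d * z := by
        have hzd : z * (d * d) = d * d * z :=
          (hzc _ (mul_mem (cfc_mem_vna _ htM) (cfc_mem_vna _ htM))).symm
        rw [← hztc, eq_sub_of_add_eq hone, mul_sub, mul_one, hzd]
      have h' := congrArg (fun u : H →L[ℂ] H => (⟪η j, u (η j)⟫_ℂ).re) h
      simpa only [mul_apply_eq_comp, sub_apply, inner_sub_right, Complex.sub_re] using h'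
    have hsmall : (⟪η j, (d * d) (z (η j))⟫_ℂ).re ≤ γ / δ := by
      set y := (d * d) (η j) with hy
      have hdd : ⟪η j, (d * d) (z (η j))⟫_ℂ = ⟪y, z (η j)⟫_ℂ := by
        rw [hy, mul_apply_eq_comp, mul_apply_eq_comp]
        rw [← ContinuousLinearMap.adjoint_inner_left, ← ContinuousLinearMap.adjoint_inner_left,
          ← ContinuousLinearMap.star_eq_adjoint, hdsa.star_eq]
      have hyn : ‖y‖ ≤ B := by
        have hd1 : ‖d‖ ≤ 1 := norm_cfc_le zero_le_one fun x hx => by
          have hxe : 0 < x + ε := by linarith [hspec x hx]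
          rw [Real.norm_eq_abs, abs_of_nonneg (Real.sqrt_nonneg _)]
          exact Real.sqrt_le_one.2 (by rw [div_le_one hxe]; linarith [hspec x hx])
        rw [hy, mul_apply_eq_comp]
        refine ((d.le_of_opNorm_le hd1 _).trans ?_)
        rw [one_mul]
        exact ((d.le_of_opNorm_le hd1 _).trans (by rw [one_mul])).trans (hηB j)
      set p := ∑ i, a j i (q (w j i)) with hp
      have hyp : ‖⟪y, p⟫_ℂ‖ ≤ γ' := by
        set i₀ : Fin (N j) → Fin n := fun l => Fintype.equivFin ι ⟨j, l⟩ with hi₀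
        have he : ∀ l, e (i₀ l) = ⟨j, l⟩ := fun l => Equiv.symm_apply_apply _ _
        have h1 : ⟪y, p⟫_ℂ = ∑ l, ⟪v (i₀ l) y, w j l⟫_ℂ := by
          rw [hp, inner_sum]
          refine Finset.sum_congr rfl fun l _ => ?_
          have hv : v (i₀ l) = q * star (a j l) := by
            simp only [v]
            rw [he l]
          rw [hv, mul_apply_eq_comp, ← ContinuousLinearMap.adjoint_inner_right q,
            ← ContinuousLinearMap.star_eq_adjoint, hqsa.star_eq,
            ContinuousLinearMap.star_eq_adjoint, ContinuousLinearMap.adjoint_inner_left]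
        have h2 : ∀ l, ‖v (i₀ l) y‖ ≤ Real.sqrt ε * B := by
          intro l
          refine abs_le_of_sq_le_sq' ?_ (by positivity) |>.2
          rw [mul_pow, Real.sq_sqrt hε0.le]
          refine le_trans ?_ ((hdt (η j)).trans
            (mul_le_mul_of_nonneg_left (pow_le_pow_left₀ (norm_nonneg _) (hηB j) 2) hε0.le))
          rw [hinner]
          rw [hy, mul_apply_eq_comp]
          exact Finset.single_le_sum (f := fun i => ‖v i (d (d (η j)))‖ ^ 2)
            (fun i _ => sq_nonneg _) (Finset.mem_univ _)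
        have h3 : ∑ l, ‖w j l‖ ≤ W + N j := by
          refine le_trans (Finset.sum_le_sum (g := fun l => ‖w j l‖ ^ 2 + 1) fun l _ => by
            nlinarith [sq_nonneg (‖w j l‖ - 1), norm_nonneg (w j l)]) ?_
          rw [Finset.sum_add_distrib]
          refine add_le_add ?_ (by simp)
          rw [hW]
          have h4 : ∑ i, ‖w (e i).1 (e i).2‖ ^ 2 = ∑ x : ι, ‖w x.1 x.2‖ ^ 2 :=
            e.sum_comp fun x => ‖w x.1 x.2‖ ^ 2
          rw [h4, Fintype.sum_sigma]
          have := Finset.single_le_sum (f := fun i => ∑ l, ‖w i l‖ ^ 2)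
            (fun i _ => Finset.sum_nonneg fun l _ => sq_nonneg _) (Finset.mem_univ j)
          linarith
        have hNn : (N j : ℝ) ≤ n := by
          have : N j ≤ Fintype.card ι := by
            rw [Fintype.card_sigma]
            simpa using Finset.single_le_sum (f := fun i => Fintype.card (Fin (N i)))
              (fun i _ => Nat.zero_le _) (Finset.mem_univ j)
          exact_mod_cast this
        rw [h1]
        refine (norm_sum_le _ _).trans ?_
        refine (Finset.sum_le_sum fun l _ => (norm_inner_le_norm _ _).trans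
          (mul_le_mul_of_nonneg_right (h2 l) (norm_nonneg _))).trans ?_
        rw [← Finset.mul_sum, hε, Real.sqrt_sq (by positivity)]
        have hpos : 0 < B * (W + n) := by positivity
        rw [div_mul_eq_mul_div, div_mul_eq_mul_div, div_le_iff₀ hpos]
        calc γ' * B * ∑ l, ‖w j l‖ ≤ γ' * B * (W + n) :=
              mul_le_mul_of_nonneg_left (h3.trans (by linarith)) (by positivity)
          _ = γ' * (B * (W + n)) := by ring
      rw [hdd]
      have hsplit : ⟪y, z (η j)⟫_ℂ = ⟪y, p⟫_ℂ + ⟪y, z (η j) - p⟫_ℂ := by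
        rw [inner_sub_right]; ring
      have h5 : ‖⟪y, z (η j) - p⟫_ℂ‖ ≤ B * γ' := (norm_inner_le_norm _ _).trans
        (mul_le_mul hyn (hw j).le (norm_nonneg _) hB0.le)
      rw [hsplit, Complex.add_re]
      have hB1 : 1 ≤ B := by
        rw [hB]; linarith [Finset.sum_nonneg (fun i (_ : i ∈ Finset.univ) => norm_nonneg (η i))]
      have h6 : 2 * B * γ' = γ / (2 * δ) := by rw [hγ']; field_simp; ring
      have h7 : γ / (2 * δ) ≤ γ / δ := by
        apply div_le_div_of_nonneg_left hγ.le hδ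
        linarith
      have h8 : γ' ≤ B * γ' := le_mul_of_one_le_left hγ'0.le hB1
      linarith [Complex.re_le_norm ⟪y, p⟫_ℂ, Complex.re_le_norm ⟪y, z (η j) - p⟫_ℂ]
    calc δ * (⟪η j, z (η j)⟫_ℂ).re - γ
        ≤ δ * ((⟪η j, z (η j)⟫_ℂ).re - (⟪η j, (d * d) (z (η j))⟫_ℂ).re) := by
          have := mul_le_mul_of_nonneg_left hsmall hδ.le
          rw [mul_div_cancel₀ _ hδ.ne'] at this
          linarith
      _ ≤ _ := by rw [← hs]; linarith

end

end Vale.Agent.P082.CB
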