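import Vale.Agent.P082.CB.Gauge
import Vale.Agent.P082.F.Basic

/-!
# The compact convex space of left legs

For a cocycle with a gauge `f (·, y) = X_y act W` for every tuple `y`, the admissible families
`X` form a compact convex set which every finite column of `M` maps to itself.
-/

open scoped InnerProductSpace ComplexConjugate
open Function (update)
open Filter Topology

namespace Vale.Agent.P082.CB

universe u

variable {H : Type u} [NormedAddCommGroup H] [InnerProductSpace ℂ H] [CompleteSpace H]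

noncomputable section

/-- The tuples with entries in `M`. -/
abbrev Tup (M : VonNeumannAlgebra H) (k : ℕ) : Type u := {y : Fin k → (H →L[ℂ] H) // Args M y}

variable {M : VonNeumannAlgebra H} {k : ℕ}

/-- Replace one entry. -/
def Tup.upd (y : Tup M k) (i : Fin k) (x : M.toStarSubalgebra) : Tup M k :=
  ⟨update y.1 i x, y.2.update i x.2⟩

/-- The tuple `(u, y)`. -/
def Tup.pre (u : M.toStarSubalgebra) (y : Tup M k) : Tup M (k + 1) :=
  ⟨Fin.cons (u : H →L[ℂ] H) y.1, y.2.cons u.2⟩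

/-- Contract two neighbours. -/
def Tup.contr (y : Tup M (k + 1)) (i : Fin k) : Tup M k :=
  ⟨Fin.contractNth i.castSucc (· * ·) y.1, y.2.contract _⟩

/-- Drop the last entry. -/
def Tup.init (y : Tup M (k + 1)) : Tup M k := ⟨Fin.init y.1, y.2.init⟩

/-- Everything that is fixed during the fixed point argument. -/
structure Sys (M : VonNeumannAlgebra H) (k : ℕ) where
  /-- The cocycle. -/
  f : Coch H (k + 1)
  /-- The bound. -/
  C : ℝ
  C_nonneg : 0 ≤ C
  /-- The slices. -/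
  F : Tup M k → M.toStarSubalgebra →ₗ[ℂ] (H →L[ℂ] H)
  F_apply : ∀ y a, F y a = f (Fin.cons (a : H →L[ℂ] H) y.1)
  /-- The norms allowed for the gauges. -/
  B : Tup M k → ℝ
  /-- The gauges. -/
  G : ∀ y, Gauge M.toStarSubalgebra (F y) (B y)

variable (S : Sys M k)

/-- The bound at `y`. -/
def Sys.Cy (y : Tup M k) : ℝ := S.C * ∏ i, ‖y.1 i‖

lemma Sys.Cy_nonneg (y : Tup M k) : 0 ≤ S.Cy y :=
  mul_nonneg S.C_nonneg (Finset.prod_nonneg fun _ _ => norm_nonneg _)

/-- Families of left legs. -/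
abbrev Sys.Leg : Type u := ∀ y : Tup M k, (S.G y).K →L[ℂ] H

/-- The slice defined by a family of left legs. -/
def Sys.psi (X : S.Leg) (y : Tup M k) (a : M.toStarSubalgebra) : H →L[ℂ] H :=
  (X y).comp (((S.G y).act a).comp (S.G y).W)

lemma Sys.psi_apply (X : S.Leg) (y : Tup M k) (a : M.toStarSubalgebra) (ξ : H) :
    S.psi X y a ξ = X y ((S.G y).act a ((S.G y).W ξ)) := rfl

lemma Sys.psi_ext {X X' : S.Leg} {y : Tup M k} (h : ∀ a, S.psi X y a = S.psi X' y a) :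
    X y = X' y := by
  refine ContinuousLinearMap.ext fun ζ => ?_
  have hd : Dense (Submodule.span ℂ {ζ | ∃ a ξ, ζ = (S.G y).act a ((S.G y).W ξ)} : Set (S.G y).K) :=
    Submodule.dense_iff_topologicalClosure_eq_top.2 (S.G y).total
  refine DFunLike.congr_fun (ContinuousLinearMap.ext_on hd ?_) ζ
  rintro _ ⟨a, ξ, rfl⟩
  exact DFunLike.congr_fun (h a) ξ

/-- The relation coming from `hd f (a, u, y) = 0`. -/
def Sys.relSide (X : S.Leg) (a u : M.toStarSubalgebra) (y : Tup M k) : H →L[ℂ] H :=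
  S.psi X y (a * u) - ∑ i : Fin k, (-1 : ℂ) ^ (i : ℕ) • S.psi X (Tup.contr (Tup.pre u y) i) a
    - (-1 : ℂ) ^ k • (S.psi X (Tup.init (Tup.pre u y)) a * (Tup.pre u y).1 (Fin.last k))

/-- The admissible families. -/
structure Sys.Adm (X : S.Leg) : Prop where
  norm_le : ∀ y ζ, ‖X y ζ‖ ≤ S.Cy y * ‖ζ‖
  mem : ∀ y a, S.psi X y a ∈ M
  map_add : ∀ (y : Tup M k) i (x x' : M.toStarSubalgebra) a,
    S.psi X (y.upd i (x + x')) a = S.psi X (y.upd i x) a + S.psi X (y.upd i x') a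
  map_smul : ∀ (y : Tup M k) i (c : ℂ) (x : M.toStarSubalgebra) a,
    S.psi X (y.upd i (c • x)) a = c • S.psi X (y.upd i x) a
  rel : ∀ a u y, S.relSide X a u y = (a : H →L[ℂ] H) * S.f (Fin.cons (u : H →L[ℂ] H) y.1)

lemma Sys.psi_comb (s t : ℝ) (X X' : S.Leg) (y : Tup M k) (a : M.toStarSubalgebra) :
    S.psi (s • X + t • X') y a = (s : ℂ) • S.psi X y a + (t : ℂ) • S.psi X' y a := by
  ext ξ
  simp [Sys.psi_apply]

/-- Admissible families form a convex set. -/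
lemma Sys.Adm.comb {X X' : S.Leg} (hX : S.Adm X) (hX' : S.Adm X') {s t : ℝ} (hs : 0 ≤ s)
    (ht : 0 ≤ t) (hst : s + t = 1) : S.Adm (s • X + t • X') where
  norm_le y ζ := by
    calc ‖(s • X + t • X') y ζ‖ ≤ ‖s • X y ζ‖ + ‖t • X' y ζ‖ := norm_add_le _ _
      _ = s * ‖X y ζ‖ + t * ‖X' y ζ‖ := by
          rw [norm_smul, norm_smul, Real.norm_eq_abs, Real.norm_eq_abs, abs_of_nonneg hs,
            abs_of_nonneg ht]
      _ ≤ s * (S.Cy y * ‖ζ‖) + t * (S.Cy y * ‖ζ‖) := add_le_add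
          (mul_le_mul_of_nonneg_left (hX.norm_le y ζ) hs)
          (mul_le_mul_of_nonneg_left (hX'.norm_le y ζ) ht)
      _ = S.Cy y * ‖ζ‖ := by rw [← add_mul, hst, one_mul]
  mem y a := by
    rw [S.psi_comb]
    exact add_mem (mem_smul _ (hX.mem y a)) (mem_smul _ (hX'.mem y a))
  map_add y i x x' a := by
    simp only [S.psi_comb, hX.map_add, hX'.map_add, smul_add]
    abel
  map_smul y i c x a := by
    simp only [S.psi_comb, hX.map_smul, hX'.map_smul, smul_add, smul_comm c]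
  rel a u y := by
    have h : S.relSide (s • X + t • X') a u y =
        (s : ℂ) • S.relSide X a u y + (t : ℂ) • S.relSide X' a u y := by
      simp only [Sys.relSide, S.psi_comb, add_mul, smul_mul_assoc, smul_add, smul_sub,
        Finset.smul_sum, Finset.sum_add_distrib, smul_comm (s : ℂ), smul_comm (t : ℂ)]
      abel
    rw [h, hX.rel, hX'.rel, ← add_smul, ← Complex.ofReal_add, hst, Complex.ofReal_one, one_smul]

/-! ### Columns -/

/-- A finite column of norm one. -/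
structure Col (M : VonNeumannAlgebra H) where
  /-- Its length. -/
  n : ℕ
  /-- Its entries. -/
  m : Fin n → M.toStarSubalgebra
  norm_sq : ∀ v : H, ∑ i, ‖(m i : H →L[ℂ] H) v‖ ^ 2 = ‖v‖ ^ 2

lemma Col.star_mul (c : Col M) :
    ∑ i, star (c.m i : H →L[ℂ] H) * (c.m i : H →L[ℂ] H) = 1 := by
  rw [← ContinuousLinearMap.coe_inj, ← ext_inner_map]
  intro v
  have h := congrArg (Complex.ofReal) (c.norm_sq v)
  push_cast at h
  simp only [ContinuousLinearMap.coe_coe, sum_apply, sum_inner, mul_apply_eq_comp,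
    one_apply_eq_self, ContinuousLinearMap.star_eq_adjoint,
    ContinuousLinearMap.adjoint_inner_left, inner_self_eq_norm_sq_to_K]
  exact h

/-- The column maps. -/
def Sys.T (c : Col M) (X : S.Leg) : S.Leg := fun y =>
  ∑ i, (star (c.m i : H →L[ℂ] H)).comp ((X y).comp ((S.G y).act (c.m i)))

lemma Sys.psi_T (c : Col M) (X : S.Leg) (y : Tup M k) (a : M.toStarSubalgebra) :
    S.psi (S.T c X) y a = ∑ i, star (c.m i : H →L[ℂ] H) * S.psi X y (c.m i * a) := by
  ext ξ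
  simp [Sys.T, Sys.psi_apply, (S.G y).act_mul]

/-- A quadratic bound passes through a column. -/
lemma Sys.T_bound (c : Col M) {X : S.Leg} {y : Tup M k} (g : H → ℝ)
    (h : ∀ η ζ, ‖⟪η, X y ζ⟫_ℂ‖ ^ 2 ≤ ‖ζ‖ ^ 2 * g η) (η : H) (ζ : (S.G y).K) :
    ‖⟪η, S.T c X y ζ⟫_ℂ‖ ^ 2 ≤ ‖ζ‖ ^ 2 * ∑ i, g ((c.m i : H →L[ℂ] H) η) := by
  rcases eq_or_ne ζ 0 with rfl | hζ
  · simp
  have hg : ∀ v, 0 ≤ g v := fun v => by
    by_contra hv
    have h1 := h v ζ
    nlinarith [sq_nonneg ‖⟪v, X y ζ⟫_ℂ‖, pow_pos (norm_pos_iff.2 hζ) 2]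
  let e : ULift.{u} (Fin c.n) → M.toStarSubalgebra := fun i => c.m i.down
  have hcol : ∑ i, ‖(S.G y).act (c.m i) ζ‖ ^ 2 ≤ ‖ζ‖ ^ 2 := by
    have := (S.G y).act_col (Finset.univ : Finset (ULift.{u} (Fin c.n))) e (fun ξ => ?_) ζ
    · exact ((Equiv.sum_comp Equiv.ulift fun i => ‖(S.G y).act (c.m i) ζ‖ ^ 2).symm.le).trans this
    · exact ((Equiv.sum_comp Equiv.ulift fun i => ‖(c.m i : H →L[ℂ] H) ξ‖ ^ 2).trans
        (c.norm_sq ξ)).le
  have hexp : ⟪η, S.T c X y ζ⟫_ℂ =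
      ∑ i, ⟪(c.m i : H →L[ℂ] H) η, X y ((S.G y).act (c.m i) ζ)⟫_ℂ := by
    simp only [Sys.T, sum_apply, inner_sum, ContinuousLinearMap.comp_apply,
      ContinuousLinearMap.star_eq_adjoint, ContinuousLinearMap.adjoint_inner_right]
  rw [hexp]
  calc ‖∑ i, ⟪(c.m i : H →L[ℂ] H) η, X y ((S.G y).act (c.m i) ζ)⟫_ℂ‖ ^ 2
      ≤ (∑ i, ‖(S.G y).act (c.m i) ζ‖ * Real.sqrt (g ((c.m i : H →L[ℂ] H) η))) ^ 2 := by
        refine pow_le_pow_left₀ (norm_nonneg _) ((norm_sum_le _ _).trans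
          (Finset.sum_le_sum fun i _ => ?_)) 2
        rw [← sq_le_sq₀ (norm_nonneg _) (by positivity), mul_pow, Real.sq_sqrt (hg _)]
        exact h _ _
    _ ≤ (∑ i, ‖(S.G y).act (c.m i) ζ‖ ^ 2) *
          ∑ i, Real.sqrt (g ((c.m i : H →L[ℂ] H) η)) ^ 2 := Finset.sum_mul_sq_le_sq_mul_sq _ _ _
    _ ≤ ‖ζ‖ ^ 2 * ∑ i, g ((c.m i : H →L[ℂ] H) η) := by
        simp only [Real.sq_sqrt (hg _)]
        exact mul_le_mul_of_nonneg_right hcol (Finset.sum_nonneg fun i _ => hg _)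

/-- Columns preserve admissibility. -/
lemma Sys.Adm.T {X : S.Leg} (hX : S.Adm X) (c : Col M) : S.Adm (S.T c X) where
  norm_le y ζ := by
    have h : ∀ η ζ, ‖⟪η, X y ζ⟫_ℂ‖ ^ 2 ≤ ‖ζ‖ ^ 2 * (S.Cy y ^ 2 * ‖η‖ ^ 2) := fun η ζ => by
      rw [← mul_pow, ← mul_pow]
      refine pow_le_pow_left₀ (norm_nonneg _) ((norm_inner_le_norm _ _).trans ?_) 2
      calc ‖η‖ * ‖X y ζ‖ ≤ ‖η‖ * (S.Cy y * ‖ζ‖) :=
            mul_le_mul_of_nonneg_left (hX.norm_le y ζ) (norm_nonneg _)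
        _ = ‖ζ‖ * (S.Cy y * ‖η‖) := by ring
    have h' := S.T_bound c (fun η => S.Cy y ^ 2 * ‖η‖ ^ 2) h (S.T c X y ζ) ζ
    rw [← Finset.mul_sum, c.norm_sq, inner_self_eq_norm_sq_to_K] at h'
    simp only [norm_pow, RCLike.norm_ofReal, abs_norm] at h'
    rcases eq_or_ne ‖S.T c X y ζ‖ 0 with h0 | h0
    · rw [h0]; exact mul_nonneg (S.Cy_nonneg y) (norm_nonneg _)
    · rw [← sq_le_sq₀ (norm_nonneg _) (mul_nonneg (S.Cy_nonneg y) (norm_nonneg _))]
      have hpos : 0 < ‖S.T c X y ζ‖ ^ 2 := by positivity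
      refine le_of_mul_le_mul_right ?_ hpos
      calc ‖S.T c X y ζ‖ ^ 2 * ‖S.T c X y ζ‖ ^ 2
          ≤ ‖ζ‖ ^ 2 * (S.Cy y ^ 2 * ‖S.T c X y ζ‖ ^ 2) := by
            refine le_trans (le_of_eq ?_) h'
            ring
        _ = (S.Cy y * ‖ζ‖) ^ 2 * ‖S.T c X y ζ‖ ^ 2 := by ring
  mem y a := by
    rw [S.psi_T]
    exact sum_mem fun i _ => mul_mem (star_mem (c.m i).2) (hX.mem _ _)
  map_add y i x x' a := by
    simp only [S.psi_T, hX.map_add, mul_add, Finset.sum_add_distrib]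
  map_smul y i r x a := by
    simp only [S.psi_T, hX.map_smul, mul_smul_comm, Finset.smul_sum]
  rel a u y := by
    have h : S.relSide (S.T c X) a u y =
        ∑ i, star (c.m i : H →L[ℂ] H) * S.relSide X (c.m i * a) u y := by
      simp only [Sys.relSide, S.psi_T, mul_sub, Finset.sum_sub_distrib, Finset.mul_sum,
        mul_smul_comm, Finset.smul_sum, Finset.sum_mul, mul_assoc]
      rw [Finset.sum_comm]
    simp only [h, hX.rel, MulMemClass.coe_mul, ← mul_assoc, ← Finset.sum_mul]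
    rw [c.star_mul, one_mul]

/-! ### Compactness -/

/-- Matrix coefficients. -/
abbrev Sys.Pt : Type u := ∀ y : Tup M k, (S.G y).K → H → ℂ

/-- A family as its matrix coefficients. -/
def Sys.emb (X : S.Leg) : S.Pt := fun y ζ η => ⟪η, X y ζ⟫_ℂ

lemma Sys.emb_injective : Function.Injective S.emb := fun X X' h => by
  funext y
  exact ContinuousLinearMap.ext fun ζ => ext_inner_left ℂ fun η => congrFun (congrFun (congrFun h y) ζ) η

/-- The set of admissible families as matrix coefficients. -/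
def Sys.space : Set S.Pt := S.emb '' {X | S.Adm X}

lemma Sys.continuous_coeff (y : Tup M k) (ζ : (S.G y).K) (η : H) :
    Continuous fun Φ : S.Pt => Φ y ζ η :=
  (continuous_apply η).comp ((continuous_apply ζ).comp (continuous_apply y))

/-- Limits of admissible families are given by families. -/
lemma Sys.exists_emb_eq {Φ : S.Pt} (h : Φ ∈ closure S.space) :
    ∃ X : S.Leg, (∀ y ζ, ‖X y ζ‖ ≤ S.Cy y * ‖ζ‖) ∧ S.emb X = Φ := by
  have key : ∀ y, (∀ ζ η η', Φ y ζ (η + η') = Φ y ζ η + Φ y ζ η') ∧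
      (∀ ζ (c : ℂ) η, Φ y ζ (c • η) = conj c * Φ y ζ η) ∧
      (∀ ζ ζ' η, Φ y (ζ + ζ') η = Φ y ζ η + Φ y ζ' η) ∧
      (∀ (c : ℂ) ζ η, Φ y (c • ζ) η = c * Φ y ζ η) ∧
      ∀ ζ η, ‖Φ y ζ η‖ ≤ S.Cy y * ‖ζ‖ * ‖η‖ := by
    intro y
    have hc := S.continuous_coeff y
    have cl : ∀ (u v : S.Pt → ℂ), Continuous u → Continuous v →
        (∀ X, S.Adm X → u (S.emb X) = v (S.emb X)) → u Φ = v Φ := fun u v hu hv huv =>
      (isClosed_eq hu hv).closure_subset_iff.2 (by rintro _ ⟨X, hX, rfl⟩; exact huv X hX) h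
    refine ⟨fun ζ η η' => cl _ _ (hc _ _) ((hc _ _).add (hc _ _)) fun X _ => inner_add_left _ _ _,
      fun ζ c η => cl _ _ (hc _ _) (continuous_const.mul (hc _ _)) fun X _ => inner_smul_left _ _ _,
      fun ζ ζ' η => cl _ _ (hc _ _) ((hc _ _).add (hc _ _)) fun X _ => by
        simp [Sys.emb],
      fun c ζ η => cl _ _ (hc _ _) (continuous_const.mul (hc _ _)) fun X _ => by
        simp [Sys.emb],
      fun ζ η => ?_⟩
    refine (isClosed_le (hc ζ η).norm continuous_const).closure_subset_iff.2 ?_ h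
    rintro _ ⟨X, hX, rfl⟩
    calc ‖⟪η, X y ζ⟫_ℂ‖ ≤ ‖η‖ * ‖X y ζ‖ := norm_inner_le_norm _ _
      _ ≤ ‖η‖ * (S.Cy y * ‖ζ‖) := mul_le_mul_of_nonneg_left (hX.norm_le y ζ) (norm_nonneg _)
      _ = S.Cy y * ‖ζ‖ * ‖η‖ := by ring
  have hv : ∀ y ζ, ∃ v : H, (∀ η, ⟪η, v⟫_ℂ = Φ y ζ η) ∧ ‖v‖ ≤ S.Cy y * ‖ζ‖ := by
    intro y ζ
    obtain ⟨hadd, hsmul, -, -, hb⟩ := key y
    let φ : StrongDual ℂ H := LinearMap.mkContinuous
      { toFun := fun η => conj (Φ y ζ η)
        map_add' := fun η η' => by simp [hadd]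
        map_smul' := fun c η => by simp [hsmul] }
      (S.Cy y * ‖ζ‖) fun η => by
        show ‖conj (Φ y ζ η)‖ ≤ _
        rw [RCLike.norm_conj]
        exact hb ζ η
    refine ⟨(InnerProductSpace.toDual ℂ H).symm φ, fun η => ?_, ?_⟩
    · rw [← inner_conj_symm, InnerProductSpace.toDual_symm_apply]
      show conj (conj (Φ y ζ η)) = _
      exact Complex.conj_conj _
    · rw [LinearIsometryEquiv.norm_map]
      exact LinearMap.mkContinuous_norm_le _
        (mul_nonneg (S.Cy_nonneg y) (norm_nonneg _)) _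
  choose v hv hvn using hv
  let X : S.Leg := fun y => LinearMap.mkContinuous
    { toFun := v y
      map_add' := fun ζ ζ' => ext_inner_left ℂ fun η => by
        rw [hv, inner_add_right, hv, hv]; exact (key y).2.2.1 ζ ζ' η
      map_smul' := fun c ζ => ext_inner_left ℂ fun η => by
        rw [hv, RingHom.id_apply, inner_smul_right, hv]; exact (key y).2.2.2.1 c ζ η }
    (S.Cy y) (hvn y)
  exact ⟨X, hvn, funext fun y => funext fun ζ => funext fun η => hv y ζ η⟩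

/-- The admissible families are compact. -/
theorem Sys.isCompact_space : IsCompact S.space := by
  have hbox : IsCompact (Set.pi Set.univ fun y : Tup M k => Set.pi Set.univ
      fun ζ : (S.G y).K => Set.pi Set.univ fun η : H =>
        Metric.closedBall (0 : ℂ) (S.Cy y * ‖ζ‖ * ‖η‖)) :=
    isCompact_univ_pi fun y => isCompact_univ_pi fun ζ => isCompact_univ_pi fun η =>
      isCompact_closedBall _ _
  refine hbox.of_isClosed_subset (isClosed_of_closure_subset fun Φ hΦ => ?_) ?_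
  · obtain ⟨X, hn, rfl⟩ := S.exists_emb_eq hΦ
    have hc := fun y => S.continuous_coeff y
    have cl : ∀ (u v : S.Pt → ℂ), Continuous u → Continuous v →
        (∀ X', S.Adm X' → u (S.emb X') = v (S.emb X')) → u (S.emb X) = v (S.emb X) :=
      fun u v hu hv huv =>
        (isClosed_eq hu hv).closure_subset_iff.2 (by rintro _ ⟨X', hX', rfl⟩; exact huv X' hX') hΦ
    refine ⟨X, ⟨hn, fun y a => ?_, fun y i x x' a => ?_, fun y i r x a => ?_, fun a u y => ?_⟩,
      rfl⟩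
    · rw [← SetLike.mem_coe, ← M.centralizer_centralizer]
      intro g hg
      refine ContinuousLinearMap.ext fun ξ => ext_inner_left ℂ fun η => ?_
      rw [mul_apply_eq_comp, mul_apply_eq_comp, ← ContinuousLinearMap.adjoint_inner_left]
      refine cl (fun Φ => Φ y ((S.G y).act a ((S.G y).W ξ)) (ContinuousLinearMap.adjoint g η))
        (fun Φ => Φ y ((S.G y).act a ((S.G y).W (g ξ))) η) (hc _ _ _) (hc _ _ _) fun X' hX' => ?_
      show ⟪ContinuousLinearMap.adjoint g η, S.psi X' y a ξ⟫_ℂ = ⟪η, S.psi X' y a (g ξ)⟫_ℂ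
      rw [ContinuousLinearMap.adjoint_inner_left, ← mul_apply_eq_comp, ← mul_apply_eq_comp,
        (hg (S.psi X' y a) (hX'.mem y a)).symm]
    · refine ContinuousLinearMap.ext fun ξ => ext_inner_left ℂ fun η => ?_
      rw [add_apply, inner_add_right]
      refine cl (fun Φ => Φ (y.upd i (x + x')) _ η)
        (fun Φ => Φ (y.upd i x) _ η + Φ (y.upd i x') _ η) (hc _ _ _)
        ((hc _ _ _).add (hc _ _ _)) fun X' hX' => ?_
      show ⟪η, S.psi X' _ a ξ⟫_ℂ = ⟪η, S.psi X' _ a ξ⟫_ℂ + ⟪η, S.psi X' _ a ξ⟫_ℂ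
      rw [hX'.map_add, add_apply, inner_add_right]
    · refine ContinuousLinearMap.ext fun ξ => ext_inner_left ℂ fun η => ?_
      rw [smul_apply, inner_smul_right]
      refine cl (fun Φ => Φ (y.upd i (r • x)) _ η) (fun Φ => r * Φ (y.upd i x) _ η) (hc _ _ _)
        (continuous_const.mul (hc _ _ _)) fun X' hX' => ?_
      show ⟪η, S.psi X' _ a ξ⟫_ℂ = r * ⟪η, S.psi X' _ a ξ⟫_ℂ
      rw [hX'.map_smul, smul_apply, inner_smul_right]
    · refine ContinuousLinearMap.ext fun ξ => ext_inner_left ℂ fun η => ?_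
      let u₁ : S.Pt → ℂ := fun Φ => Φ y ((S.G y).act (a * u) ((S.G y).W ξ)) η
        - ∑ i : Fin k, (-1 : ℂ) ^ (i : ℕ) *
            Φ (Tup.contr (Tup.pre u y) i) ((S.G _).act a ((S.G _).W ξ)) η
        - (-1 : ℂ) ^ k * Φ (Tup.init (Tup.pre u y))
            ((S.G _).act a ((S.G _).W ((Tup.pre u y).1 (Fin.last k) ξ))) η
      have hexp : ∀ X', ⟪η, S.relSide X' a u y ξ⟫_ℂ = u₁ (S.emb X') := fun X' => by
        simp [u₁, Sys.relSide, Sys.psi_apply, Sys.emb]
      rw [hexp]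
      refine cl u₁ (fun _ => _) (by
        refine ((hc _ _ _).sub (continuous_finsetSum _ fun i _ =>
          continuous_const.mul (hc _ _ _))).sub (continuous_const.mul (hc _ _ _))) continuous_const
        fun X' hX' => ?_
      rw [← hexp, hX'.rel]
  · rintro _ ⟨X, hX, rfl⟩ y - ζ - η -
    rw [mem_closedBall_zero_iff]
    calc ‖⟪η, X y ζ⟫_ℂ‖ ≤ ‖η‖ * ‖X y ζ‖ := norm_inner_le_norm _ _
      _ ≤ ‖η‖ * (S.Cy y * ‖ζ‖) := mul_le_mul_of_nonneg_left (hX.norm_le y ζ) (norm_nonneg _)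
      _ = S.Cy y * ‖ζ‖ * ‖η‖ := by ring

end

end Vale.Agent.P082.CB
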