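import Mathlib.Analysis.CStarAlgebra.Unitary.Span
import Vale.Agent.P082.CB.Space
import Vale.Agent.P082.CB.Column

/-!
# A family of left legs fixed by every column

A minimal nonempty closed convex set of admissible families which every column maps to itself is
a single family, by comparison of the quadratic bounds `|⟪η, X ζ⟫|² ≤ ‖ζ‖² ⟪η, G η⟫` with `G`
commuting with `M`. Hence the slices are left multiplications.
-/

open scoped InnerProductSpace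

namespace Vale.Agent.P082.CB

universe u

variable {H : Type u} [NormedAddCommGroup H] [InnerProductSpace ℂ H] [CompleteSpace H]
variable {M : VonNeumannAlgebra H} {k : ℕ}

noncomputable section

/-- The real quadratic form of an operator. -/
def qf (G : H →L[ℂ] H) (η : H) : ℝ := (⟪η, G η⟫_ℂ).re

omit [CompleteSpace H] in
lemma qf_sub (G G' : H →L[ℂ] H) (η : H) : qf (G - G') η = qf G η - qf G' η := by
  simp [qf]

omit [CompleteSpace H] in
lemma qf_smul (c : ℝ) (G : H →L[ℂ] H) (η : H) : qf ((c : ℂ) • G) η = c * qf G η := by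
  simp [qf]

lemma Col.sum_qf (c : Col M) {G : H →L[ℂ] H} (hG : ∀ x ∈ M, x * G = G * x) (η : H) :
    ∑ i, qf G ((c.m i : H →L[ℂ] H) η) = qf G η := by
  have h : ∀ i, qf G ((c.m i : H →L[ℂ] H) η) =
      (⟪η, (star (c.m i : H →L[ℂ] H) * (c.m i : H →L[ℂ] H)) (G η)⟫_ℂ).re := fun i => by
    rw [qf, mul_apply_eq_comp, ContinuousLinearMap.star_eq_adjoint,
      ContinuousLinearMap.adjoint_inner_right, ← mul_apply_eq_comp (f := G),
      ← hG _ (c.m i).2, mul_apply_eq_comp]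
  simp only [h, ← Complex.re_sum, ← inner_sum, ← sum_apply, c.star_mul]
  rw [one_apply_eq_self, qf]

/-- The column of a unitary. -/
def Col.ofUnitary (u : M.toStarSubalgebra) (hu : star (u : H →L[ℂ] H) * u = 1) : Col M where
  n := 1
  m _ := u
  norm_sq v := by
    have h : ⟪(u : H →L[ℂ] H) v, (u : H →L[ℂ] H) v⟫_ℂ = ⟪v, v⟫_ℂ := by
      rw [← ContinuousLinearMap.adjoint_inner_right, ← ContinuousLinearMap.star_eq_adjoint,
        ← mul_apply_eq_comp, hu, one_apply_eq_self]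
    rw [Fin.sum_univ_one]
    simpa [inner_self_eq_norm_sq_to_K, ← Complex.ofReal_pow] using congrArg Complex.re h

variable (S : Sys M k)

/-- The bound by `G` at `y`. -/
def Sys.Bd (y : Tup M k) (G : H →L[ℂ] H) (X : S.Leg) : Prop :=
  ∀ η ζ, ‖⟪η, X y ζ⟫_ℂ‖ ^ 2 ≤ ‖ζ‖ ^ 2 * qf G η

variable {S}

lemma Sys.Bd.comb {y : Tup M k} {G : H →L[ℂ] H} {X X' : S.Leg} (h : S.Bd y G X)
    (h' : S.Bd y G X') {s t : ℝ} (hs : 0 ≤ s) (ht : 0 ≤ t) (hst : s + t = 1) :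
    S.Bd y G (s • X + t • X') := fun η ζ => by
  set a := ‖⟪η, X y ζ⟫_ℂ‖
  set b := ‖⟪η, X' y ζ⟫_ℂ‖
  have h1 : ‖⟪η, (s • X + t • X') y ζ⟫_ℂ‖ ≤ s * a + t * b := by
    have e : ⟪η, (s • X + t • X') y ζ⟫_ℂ = (s : ℂ) * ⟪η, X y ζ⟫_ℂ + (t : ℂ) * ⟪η, X' y ζ⟫_ℂ := by
      simp [inner_smul_right_eq_smul, Complex.real_smul]
    rw [e]
    refine (norm_add_le _ _).trans (le_of_eq ?_)
    simp [abs_of_nonneg hs, abs_of_nonneg ht, a, b]
  calc ‖⟪η, (s • X + t • X') y ζ⟫_ℂ‖ ^ 2 ≤ (s * a + t * b) ^ 2 :=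
        pow_le_pow_left₀ (norm_nonneg _) h1 2
    _ ≤ s * a ^ 2 + t * b ^ 2 := by
        have h2 := mul_nonneg (mul_nonneg hs ht) (sq_nonneg (a - b))
        have ht' : t = 1 - s := by linarith
        subst ht'
        nlinarith
    _ ≤ s * (‖ζ‖ ^ 2 * qf G η) + t * (‖ζ‖ ^ 2 * qf G η) :=
        add_le_add (mul_le_mul_of_nonneg_left (h η ζ) hs) (mul_le_mul_of_nonneg_left (h' η ζ) ht)
    _ = ‖ζ‖ ^ 2 * qf G η := by rw [← add_mul, hst, one_mul]

lemma Sys.Bd.T {y : Tup M k} {G : H →L[ℂ] H} {X : S.Leg} (h : S.Bd y G X)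
    (hG : ∀ x ∈ M, x * G = G * x) (c : Col M) : S.Bd y G (S.T c X) := fun η ζ =>
  (S.T_bound c (qf G) h η ζ).trans_eq (by rw [c.sum_qf hG])

lemma Sys.Adm.bd {X : S.Leg} (hX : S.Adm X) (y : Tup M k) :
    S.Bd y (((S.Cy y ^ 2 : ℝ) : ℂ) • 1) X := fun η ζ => by
  rw [qf_smul]
  have h1 : qf (1 : H →L[ℂ] H) η = ‖η‖ ^ 2 := by
    simp [qf, inner_self_eq_norm_sq_to_K, ← Complex.ofReal_pow]
  rw [h1, ← mul_pow, ← mul_pow]
  refine pow_le_pow_left₀ (norm_nonneg _) ((norm_inner_le_norm _ _).trans ?_) 2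
  calc ‖η‖ * ‖X y ζ‖ ≤ ‖η‖ * (S.Cy y * ‖ζ‖) :=
        mul_le_mul_of_nonneg_left (hX.norm_le y ζ) (norm_nonneg _)
    _ = ‖ζ‖ * (S.Cy y * ‖η‖) := by ring

lemma Sys.Bd.norm_adjoint_le {y : Tup M k} {G : H →L[ℂ] H} {X : S.Leg} (h : S.Bd y G X)
    (hG : ∀ η, 0 ≤ qf G η) (η : H) : ‖ContinuousLinearMap.adjoint (X y) η‖ ^ 2 ≤ qf G η := by
  set u := ContinuousLinearMap.adjoint (X y) η
  rcases eq_or_ne u 0 with h0 | h0
  · simpa [h0] using hG η
  have h1 := h η u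
  rw [← ContinuousLinearMap.adjoint_inner_left, inner_self_eq_norm_sq_to_K, norm_pow,
    RCLike.norm_ofReal, abs_norm, sq (‖u‖ ^ 2)] at h1
  exact le_of_mul_le_mul_left h1 (by positivity)

/-- The midpoint of two members with different slices improves every bound. -/
lemma Sys.exists_gain {X X' : S.Leg} (hX : S.Adm X) (hX' : S.Adm X') {y : Tup M k}
    (hne : X y ≠ X' y) :
    ∃ b ∈ M, IsSelfAdjoint b ∧ b ≠ 0 ∧ (∀ v, 0 ≤ qf b v) ∧
      ∀ G, S.Bd y G X → S.Bd y G X' → (∀ η, 0 ≤ qf G η) →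
        S.Bd y (G - b) ((1 / 2 : ℝ) • X + (1 / 2 : ℝ) • X') := by
  obtain ⟨a, ha⟩ : ∃ a, S.psi X y a ≠ S.psi X' y a := by
    by_contra hcon
    exact hne (S.psi_ext fun a => not_not.1 fun h => hcon ⟨a, h⟩)
  set Δ := S.psi X y a - S.psi X' y a with hΔ
  have hΔM : Δ ∈ M := sub_mem (hX.mem y a) (hX'.mem y a)
  set V : H →L[ℂ] (S.G y).K := ((S.G y).act a).comp (S.G y).W
  set L : ℝ := ‖V‖ + 1
  have hL : 0 < L := by positivity
  set κ : ℝ := 1 / (4 * L ^ 2) with hκ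
  have hκ0 : 0 < κ := by positivity
  have hq : ∀ v, qf ((κ : ℂ) • (Δ * star Δ)) v = κ * ‖star Δ v‖ ^ 2 := fun v => by
    rw [qf_smul, qf, mul_apply_eq_comp, ← ContinuousLinearMap.adjoint_inner_left,
      ← ContinuousLinearMap.star_eq_adjoint, inner_self_eq_norm_sq_to_K]
    simp [← Complex.ofReal_pow]
  refine ⟨(κ : ℂ) • (Δ * star Δ), mem_smul _ (mul_mem hΔM (star_mem hΔM)), ?_, ?_,
    fun v => by rw [hq]; positivity, fun G h h' hG η ζ => ?_⟩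
  · refine IsSelfAdjoint.smul ?_ (IsSelfAdjoint.mul_star_self Δ)
    simp [IsSelfAdjoint]
  · rw [smul_ne_zero_iff]
    refine ⟨by exact_mod_cast hκ0.ne', fun h0 => ha (sub_eq_zero.1 ?_)⟩
    exact (CStarRing.mul_star_self_eq_zero_iff Δ).1 h0
  · set u := ContinuousLinearMap.adjoint (X y) η
    set v := ContinuousLinearMap.adjoint (X' y) η
    have hu := h.norm_adjoint_le hG η
    have hv := h'.norm_adjoint_le hG η
    have hd : star Δ η = ContinuousLinearMap.adjoint V (u - v) := by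
      have e : Δ = (X y - X' y).comp V := by
        ext ξ; simp [hΔ, V, Sys.psi_apply]
      rw [e, ContinuousLinearMap.star_eq_adjoint, ContinuousLinearMap.adjoint_comp, map_sub]
      simp [u, v]
    have hdn : ‖star Δ η‖ ≤ L * ‖u - v‖ := by
      rw [hd]
      refine (ContinuousLinearMap.le_opNorm _ _).trans ?_
      refine mul_le_mul_of_nonneg_right ?_ (norm_nonneg _)
      rw [LinearIsometryEquiv.norm_map]
      exact le_add_of_nonneg_right zero_le_one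
    have hdn' : κ * ‖star Δ η‖ ^ 2 ≤ ‖u - v‖ ^ 2 / 4 := by
      refine (mul_le_mul_of_nonneg_left (pow_le_pow_left₀ (norm_nonneg _) hdn 2) hκ0.le).trans
        (le_of_eq ?_)
      rw [hκ]
      field_simp
    have hp := parallelogram_law_with_norm ℂ u v
    rw [qf_sub, hq]
    have e : ⟪η, ((1 / 2 : ℝ) • X + (1 / 2 : ℝ) • X') y ζ⟫_ℂ = ⟪(1 / 2 : ℝ) • (u + v), ζ⟫_ℂ := by
      simp [u, v, inner_smul_left_eq_smul,
        inner_smul_right_eq_smul, ContinuousLinearMap.adjoint_inner_left, smul_add]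
    rw [e]
    calc ‖⟪(1 / 2 : ℝ) • (u + v), ζ⟫_ℂ‖ ^ 2 ≤ (‖(1 / 2 : ℝ) • (u + v)‖ * ‖ζ‖) ^ 2 :=
          pow_le_pow_left₀ (norm_nonneg _) (norm_inner_le_norm _ _) 2
      _ = ‖ζ‖ ^ 2 * (‖u + v‖ ^ 2 / 4) := by rw [norm_smul]; norm_num; ring
      _ ≤ ‖ζ‖ ^ 2 * (qf G η - κ * ‖star Δ η‖ ^ 2) := by
          refine mul_le_mul_of_nonneg_left ?_ (sq_nonneg _)
          nlinarith

variable (S)

/-- A nonempty closed convex set of admissible families which every column maps to itself. -/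
structure Sys.Good (A : Set S.Leg) : Prop where
  ne : A.Nonempty
  adm : ∀ X ∈ A, S.Adm X
  closed : IsClosed (S.emb '' A)
  convex : ∀ X ∈ A, ∀ X' ∈ A, ∀ s t : ℝ, 0 ≤ s → 0 ≤ t → s + t = 1 → s • X + t • X' ∈ A
  inv : ∀ X ∈ A, ∀ c : Col M, S.T c X ∈ A

variable {S}

lemma Sys.Good.isCompact {A : Set S.Leg} (h : S.Good A) : IsCompact (S.emb '' A) :=
  S.isCompact_space.of_isClosed_subset h.closed (Set.image_mono h.adm)

lemma Sys.isClosed_bd (y : Tup M k) (G : H →L[ℂ] H) :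
    IsClosed {Φ : S.Pt | ∀ η ζ, ‖Φ y ζ η‖ ^ 2 ≤ ‖ζ‖ ^ 2 * qf G η} := by
  simp only [Set.ofPred_forall]
  exact isClosed_iInter fun η => isClosed_iInter fun ζ =>
    isClosed_le ((S.continuous_coeff y ζ η).norm.pow 2) continuous_const

lemma Sys.exists_minimal {X₀ : S.Leg} (h₀ : S.Adm X₀) : ∃ A, Minimal S.Good A := by
  have hall : S.Good {X | S.Adm X} :=
    ⟨⟨X₀, h₀⟩, fun _ h => h, S.isCompact_space.isClosed,
      fun X hX X' hX' s t hs ht hst => hX.comb S hX' hs ht hst, fun X hX c => hX.T S c⟩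
  refine (zorn_superset_nonempty {A | S.Good A} (fun c hc hch hne => ?_) _ hall).imp
    fun A hA => hA.2
  have himage : S.emb '' ⋂₀ c = ⋂₀ ((S.emb '' ·) '' c) := by
    obtain ⟨A₁, hA₁⟩ := hne
    refine Set.Subset.antisymm ?_ fun Φ hΦ => ?_
    · rintro _ ⟨X, hX, rfl⟩ _ ⟨A, hA, rfl⟩
      exact ⟨X, hX A hA, rfl⟩
    · obtain ⟨X, -, rfl⟩ := hΦ _ ⟨A₁, hA₁, rfl⟩
      refine ⟨X, fun A hA => ?_, rfl⟩
      obtain ⟨X', hX', e⟩ := hΦ _ ⟨A, hA, rfl⟩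
      exact S.emb_injective e ▸ hX'
  have hclosed : IsClosed (S.emb '' ⋂₀ c) := by
    rw [himage]
    exact isClosed_sInter (by rintro _ ⟨A, hA, rfl⟩; exact (hc hA).closed)
  refine ⟨⋂₀ c, ⟨?_, ?_, hclosed, ?_, ?_⟩, fun A hA => Set.sInter_subset_of_mem hA⟩
  · have : Nonempty (Set.image (S.emb '' ·) c) := (hne.image _).to_subtype
    have hd : DirectedOn (· ⊇ ·) ((S.emb '' ·) '' c) := by
      rintro _ ⟨A, hA, rfl⟩ _ ⟨B, hB, rfl⟩
      rcases hch.total hA hB with h | h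
      · exact ⟨_, ⟨A, hA, rfl⟩, subset_rfl, Set.image_mono h⟩
      · exact ⟨_, ⟨B, hB, rfl⟩, Set.image_mono h, subset_rfl⟩
    have h := IsCompact.nonempty_sInter_of_directed_nonempty_isCompact_isClosed hd
      (by rintro _ ⟨A, hA, rfl⟩; exact (hc hA).ne.image _)
      (by rintro _ ⟨A, hA, rfl⟩; exact (hc hA).isCompact)
      (by rintro _ ⟨A, hA, rfl⟩; exact (hc hA).closed)
    rw [← himage] at h
    exact h.of_image
  · obtain ⟨A, hA⟩ := hne
    exact fun X hX => (hc hA).adm X (hX A hA)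
  · exact fun X hX X' hX' s t hs ht hst A hA =>
      (hc hA).convex X (hX A hA) X' (hX' A hA) s t hs ht hst
  · exact fun X hX e A hA => (hc hA).inv X (hX A hA) e

/-- A bound commuting with `M` holds for all members of a minimal set or for none. -/
lemma Sys.bd_of_minimal {A : Set S.Leg} (hA : Minimal S.Good A) {y : Tup M k}
    {G : H →L[ℂ] H} (hG : ∀ x ∈ M, x * G = G * x) (h : ∃ X ∈ A, S.Bd y G X) :
    ∀ X ∈ A, S.Bd y G X := by
  obtain ⟨X₁, h₁, h₁'⟩ := h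
  have hA' : S.Good {X ∈ A | S.Bd y G X} := by
    refine ⟨⟨X₁, h₁, h₁'⟩, fun X hX => hA.prop.adm X hX.1, ?_,
      fun X hX X' hX' s t hs ht hst =>
        ⟨hA.prop.convex X hX.1 X' hX'.1 s t hs ht hst, hX.2.comb hX'.2 hs ht hst⟩,
      fun X hX c => ⟨hA.prop.inv X hX.1 c, hX.2.T hG c⟩⟩
    have he : S.emb '' {X ∈ A | S.Bd y G X} =
        S.emb '' A ∩ {Φ : S.Pt | ∀ η ζ, ‖Φ y ζ η‖ ^ 2 ≤ ‖ζ‖ ^ 2 * qf G η} := by
      ext Φ
      exact ⟨fun ⟨X, hX, e⟩ => ⟨⟨X, hX.1, e⟩, e ▸ hX.2⟩,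
        fun ⟨⟨X, hX, e⟩, h⟩ => ⟨X, ⟨hX, by subst e; exact h⟩, e⟩⟩
    rw [he]
    exact hA.prop.closed.inter (S.isClosed_bd y G)
  exact fun X hX => (hA.2 hA' (fun _ h => h.1) hX).2

/-- A member on which the finite columns spread `b` over `z`. -/
lemma Sys.exists_spread {A : Set S.Leg} (hA : S.Good A) {Z : S.Leg} (hZ : Z ∈ A) {y : Tup M k}
    {G b z : H →L[ℂ] H} {δ : ℝ} (hG : ∀ x ∈ M, x * G = G * x) (hbd : S.Bd y (G - b) Z)
    (hcol : ∀ (r : ℕ) (η : Fin r → H) (γ : ℝ), 0 < γ → ∃ c : Col M, ∀ j,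
      δ * qf z (η j) - γ ≤ ∑ i, qf b ((c.m i : H →L[ℂ] H) (η j))) :
    ∃ X ∈ A, S.Bd y (G - (δ : ℂ) • z) X := by
  let t : H × ℕ → Set S.Pt := fun p =>
    {Φ | ∀ ζ, ‖Φ y ζ p.1‖ ^ 2 ≤ ‖ζ‖ ^ 2 * (qf G p.1 - δ * qf z p.1 + 1 / ((p.2 : ℝ) + 1))}
  have ht : ∀ p, IsClosed (t p) := fun p => by
    simp only [t, Set.ofPred_forall]
    exact isClosed_iInter fun ζ =>
      isClosed_le ((S.continuous_coeff y ζ p.1).norm.pow 2) continuous_const
  obtain ⟨_, ⟨X, hX, rfl⟩, hXt⟩ := hA.isCompact.inter_iInter_nonempty t ht fun u => by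
    obtain ⟨c, hc⟩ := hcol u.card (fun i => (u.equivFin.symm i : H × ℕ).1)
      (1 / ((u.sup Prod.snd : ℕ) + 1 : ℝ)) (by positivity)
    refine ⟨S.emb (S.T c Z), ⟨_, hA.inv Z hZ c, rfl⟩, Set.mem_iInter₂.2 fun p hp ζ => ?_⟩
    refine (S.T_bound c (qf (G - b)) hbd p.1 ζ).trans ?_
    refine mul_le_mul_of_nonneg_left ?_ (sq_nonneg _)
    simp only [qf_sub, Finset.sum_sub_distrib, c.sum_qf hG]
    have h := hc (u.equivFin ⟨p, hp⟩)
    simp only [Equiv.symm_apply_apply] at h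
    have hle : 1 / ((u.sup Prod.snd : ℕ) + 1 : ℝ) ≤ 1 / ((p.2 : ℝ) + 1) := by
      gcongr
      exact Finset.le_sup hp
    linarith
  refine ⟨X, hX, fun η ζ => ?_⟩
  rw [qf_sub, qf_smul]
  have h : ∀ n : ℕ, ‖⟪η, X y ζ⟫_ℂ‖ ^ 2 ≤
      ‖ζ‖ ^ 2 * (qf G η - δ * qf z η + 1 / ((n : ℝ) + 1)) := fun n =>
    (Set.mem_iInter.1 hXt (η, n)) ζ
  have hl := ((tendsto_one_div_add_atTop_nhds_zero_nat (𝕜 := ℝ)).const_add
    (qf G η - δ * qf z η)).const_mul (‖ζ‖ ^ 2)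
  rw [add_zero] at hl
  exact ge_of_tendsto' hl h

/-- All members of a minimal set agree. -/
theorem Sys.eq_of_minimal {A : Set S.Leg} (hA : Minimal S.Good A) {X X' : S.Leg} (hX : X ∈ A)
    (hX' : X' ∈ A) (y : Tup M k) : X y = X' y := by
  by_contra hne
  obtain ⟨b, hbM, hbsa, hb0, hbpos, hgain⟩ :=
    Sys.exists_gain (hA.prop.adm X hX) (hA.prop.adm X' hX') hne
  obtain ⟨δ, hδ, q, hqM, hqsa, hq0, hbq⟩ := exists_cut_elem hbM hbsa hbpos hb0
  obtain ⟨z, hzM, hzc, hzp, hzq, happ⟩ := exists_central_support hqM hqsa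
  obtain ⟨ξ, hξ, hξz⟩ : ∃ ξ, ‖ξ‖ = 1 ∧ z ξ = ξ := by
    obtain ⟨v, hv⟩ : ∃ v, q v ≠ 0 := by
      by_contra hcon
      exact hq0 (ContinuousLinearMap.ext fun v => not_not.1 fun h => hcon ⟨v, h⟩)
    refine ⟨((‖q v‖⁻¹ : ℝ) : ℂ) • q v, ?_, ?_⟩
    · rw [norm_smul]
      simp [norm_ne_zero_iff.2 hv]
    · rw [map_smul, ← mul_apply_eq_comp, hzq]
  have hcol : ∀ (r : ℕ) (η : Fin r → H) (γ : ℝ), 0 < γ → ∃ c : Col M, ∀ j,
      δ * qf z (η j) - γ ≤ ∑ i, qf b ((c.m i : H →L[ℂ] H) (η j)) := by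
    intro r η γ hγ
    obtain ⟨n, m, hm, hn, hj⟩ := exists_column hδ hqM hqsa hbpos hbq hzc hzp hzq happ η hγ
    exact ⟨⟨n, fun i => ⟨m i, hm i⟩, hn⟩, hj⟩
  let V : Set ℝ := {r | ∃ G : H →L[ℂ] H, (∀ x ∈ M, x * G = G * x) ∧ S.Bd y G X ∧ r = qf G ξ}
  have hpos : ∀ G : H →L[ℂ] H, S.Bd y G X → ∀ η, 0 ≤ qf G η := fun G h η => by
    have h1 := h η ((S.G y).W ξ)
    rw [(S.G y).norm_W, hξ, one_pow, one_mul] at h1
    exact (sq_nonneg _).trans h1
  have hbb : BddBelow V := ⟨0, by rintro r ⟨G, -, hG, rfl⟩; exact hpos G hG ξ⟩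
  have hVne : V.Nonempty :=
    ⟨_, ((S.Cy y ^ 2 : ℝ) : ℂ) • 1, fun x _ => by simp, (hA.prop.adm X hX).bd y, rfl⟩
  obtain ⟨_, ⟨G, hG, hGX, rfl⟩, hlt⟩ := exists_lt_of_csInf_lt hVne (lt_add_of_pos_right (sInf V) hδ)
  have hZ : (1 / 2 : ℝ) • X + (1 / 2 : ℝ) • X' ∈ A :=
    hA.prop.convex X hX X' hX' _ _ (by norm_num) (by norm_num) (by norm_num)
  have hgood := hgain G hGX (Sys.bd_of_minimal hA hG ⟨X, hX, hGX⟩ X' hX') (hpos G hGX)
  have hG' : ∀ x ∈ M, x * (G - (δ : ℂ) • z) = (G - (δ : ℂ) • z) * x := fun x hx => by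
    rw [mul_sub, sub_mul, hG x hx, mul_smul_comm, smul_mul_assoc, hzc x hx]
  have hX'' := Sys.bd_of_minimal hA hG' (Sys.exists_spread hA.prop hZ hG hgood hcol) X hX
  have hle := csInf_le hbb ⟨_, hG', hX'', rfl⟩
  have hzξ : qf z ξ = 1 := by
    simp [qf, hξz, inner_self_eq_norm_sq_to_K, hξ]
  rw [qf_sub, qf_smul, hzξ] at hle
  linarith

variable (S)

/-- Some admissible family has all its slices equal to left multiplications. -/
theorem Sys.exists_mul {X₀ : S.Leg} (h₀ : S.Adm X₀) :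
    ∃ X, S.Adm X ∧ ∀ y (a : M.toStarSubalgebra), S.psi X y a = a * S.psi X y 1 := by
  obtain ⟨A, hA⟩ := S.exists_minimal h₀
  obtain ⟨X, hX⟩ := hA.prop.ne
  refine ⟨X, hA.prop.adm X hX, fun y a => ?_⟩
  have hclosed : IsClosed (M.toStarSubalgebra : Set (H →L[ℂ] H)) := by
    rw [VonNeumannAlgebra.coe_toStarSubalgebra, ← M.centralizer_centralizer]
    exact Set.isClosed_centralizer _
  let : CStarAlgebra M.toStarSubalgebra := StarSubalgebra.cstarAlgebra M.toStarSubalgebra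
  have ha : a ∈ Submodule.span ℂ (unitary M.toStarSubalgebra : Set M.toStarSubalgebra) := by
    rw [CStarAlgebra.span_unitary]; exact Submodule.mem_top
  induction ha using Submodule.span_induction with
  | mem u hu =>
    have hu1 : star (u : H →L[ℂ] H) * u = 1 := congrArg Subtype.val (Unitary.mem_iff.1 hu).1
    have hu2 : (u : H →L[ℂ] H) * star (u : H →L[ℂ] H) = 1 :=
      congrArg Subtype.val (Unitary.mem_iff.1 hu).2
    let c := Col.ofUnitary u hu1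
    have hfix := Sys.eq_of_minimal hA hX (hA.prop.inv X hX c) y
    have h : S.psi X y 1 = S.psi (S.T c X) y 1 := by
      unfold Sys.psi
      rw [hfix]
    rw [S.psi_T] at h
    have h' : S.psi X y 1 = star (u : H →L[ℂ] H) * S.psi X y (u * 1) :=
      h.trans (Fin.sum_univ_one fun _ : Fin 1 => star (u : H →L[ℂ] H) * S.psi X y (u * 1))
    rw [h', mul_one, ← mul_assoc, hu2, one_mul]
  | zero =>
    ext ξ
    simp [Sys.psi, show (S.G y).act 0 = 0 by simpa using (S.G y).act_smul 0 0]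
  | add p q _ _ hp hq =>
    have h : S.psi X y (p + q) = S.psi X y p + S.psi X y q := by
      ext ξ; simp [Sys.psi, (S.G y).act_add]
    rw [h, hp, hq]
    exact (add_mul _ _ _).symm
  | smul r p _ hp =>
    have h : S.psi X y (r • p) = r • S.psi X y p := by
      ext ξ; simp [Sys.psi, (S.G y).act_smul]
    rw [h, hp]
    exact (smul_mul_assoc _ _ _).symm

end

end Vale.Agent.P082.CB
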