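import Mathlib.Analysis.VonNeumannAlgebra.Basic
import Mathlib.Analysis.Convex.Cone.Extension
import Mathlib.Analysis.Matrix.Order
import Mathlib.Analysis.Matrix.PosDef
import Mathlib.LinearAlgebra.Finsupp.LSum

/-!
# A positive form dominating a linear map that is bounded on matrices

For a linear `F : M → B(H)` which is bounded on all rectangular matrices by `C`, a single
positive functional `R` on pairs of finitely supported families `H →₀ M` with
`‖∑ F (t η) η‖ ^ 2 ≤ C ^ 2 R t t` and `R` equal to the inner product on scalar families.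
-/

open scoped InnerProductSpace ComplexConjugate ComplexOrder
open Complex

namespace Vale.Agent.P082.CB

universe u

variable {H : Type u} [NormedAddCommGroup H] [InnerProductSpace ℂ H] [CompleteSpace H]

noncomputable section

/-- `F` is linear on `M` and maps every rectangular matrix over `M` of norm at most one to a
matrix of norm at most `C`. -/
structure MatBounded (M : StarSubalgebra ℂ (H →L[ℂ] H)) (F : M →ₗ[ℂ] (H →L[ℂ] H)) (C : ℝ) :
    Prop where
  bound : ∀ (m n : ℕ) (x : Fin m → Fin n → M),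
    (∀ v : Fin n → H, ∑ i, ‖∑ j, (x i j : H →L[ℂ] H) (v j)‖ ^ 2 ≤ ∑ j, ‖v j‖ ^ 2) →
      ∀ v : Fin n → H, ∑ i, ‖∑ j, F (x i j) (v j)‖ ^ 2 ≤ C ^ 2 * ∑ j, ‖v j‖ ^ 2

variable (M : StarSubalgebra ℂ (H →L[ℂ] H))

/-- `t ↦ ∑ η, t η (v η)`. -/
def tv (v : H → H) : (H →₀ M) →ₗ[ℂ] H :=
  Finsupp.lsum ℂ fun η =>
    { toFun := fun a : M => (a : H →L[ℂ] H) (v η)
      map_add' := fun a b => by simp
      map_smul' := fun c a => by simp }

lemma tv_apply (v : H → H) (t : H →₀ M) : tv M v t = t.sum fun η a => (a : H →L[ℂ] H) (v η) :=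
  rfl

lemma tv_single (v : H → H) (η : H) (a : M) :
    tv M v (Finsupp.single η a) = (a : H →L[ℂ] H) (v η) := by
  simp [tv]

/-- The quadratic form of a finitely supported matrix at `v`. -/
def quad (v : H → H) : (H × H →₀ M) →ₗ[ℝ] ℝ :=
  Finsupp.lsum ℝ fun p =>
    { toFun := fun a : M => (⟪v p.1, (a : H →L[ℂ] H) (v p.2)⟫_ℂ).re
      map_add' := fun a b => by simp [inner_add_right]
      map_smul' := fun c a => by
        simp [inner_smul_right, ← Complex.coe_smul] }

lemma quad_single (v : H → H) (p : H × H) (a : M) :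
    quad M v (Finsupp.single p a) = (⟪v p.1, (a : H →L[ℂ] H) (v p.2)⟫_ℂ).re := by
  simp [quad]

/-- The matrix `t* t'`. -/
def outer (t t' : H →₀ M) : H × H →₀ M :=
  t.sum fun ξ a => t'.sum fun η b => Finsupp.single (ξ, η) (star a * b)

lemma quad_outer (v : H → H) (t t' : H →₀ M) :
    quad M v (outer M t t') = (⟪tv M v t, tv M v t'⟫_ℂ).re := by
  simp only [outer, Finsupp.sum, map_sum, quad_single, tv_apply]
  rw [sum_inner, Complex.re_sum]
  refine Finset.sum_congr rfl fun ξ _ => ?_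
  rw [inner_sum, Complex.re_sum]
  refine Finset.sum_congr rfl fun η _ => ?_
  congr 1
  rw [MulMemClass.coe_mul, mul_apply_eq_comp, StarMemClass.coe_star,
    ContinuousLinearMap.star_eq_adjoint, ContinuousLinearMap.adjoint_inner_right]

/-- The scalar matrices. -/
def scal : (H × H →₀ ℂ) →ₗ[ℝ] (H × H →₀ M) :=
  Finsupp.mapRange.linearMap ((Algebra.linearMap ℂ M).restrictScalars ℝ)

lemma scal_single (p : H × H) (c : ℂ) :
    scal M (Finsupp.single p c) = Finsupp.single p (algebraMap ℂ M c) := by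
  simp [scal]

lemma outer_scalar (a b : H →₀ ℂ) :
    outer M (Finsupp.mapRange.linearMap (Algebra.linearMap ℂ M) a)
        (Finsupp.mapRange.linearMap (Algebra.linearMap ℂ M) b) =
      scal M (a.sum fun ξ x => b.sum fun η y => Finsupp.single (ξ, η) (conj x * y)) := by
  simp only [outer, map_finsuppSum, scal_single, Finsupp.mapRange.linearMap_apply]
  rw [Finsupp.sum_mapRange_index (by simp)]
  refine Finsupp.sum_congr fun ξ _ => ?_
  rw [Finsupp.sum_mapRange_index (by simp)]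
  refine Finsupp.sum_congr fun η _ => ?_
  simp [map_mul, ← algebraMap_star_comm]

variable {M} {F : M →ₗ[ℂ] (H →L[ℂ] H)}

/-- `t ↦ ∑ η, F (t η) η`. -/
def fv (F : M →ₗ[ℂ] (H →L[ℂ] H)) : (H →₀ M) →ₗ[ℂ] H :=
  Finsupp.lsum ℂ fun η => (ContinuousLinearMap.apply ℂ H η).toLinearMap.comp F

lemma fv_apply (t : H →₀ M) : fv F t = t.sum fun η a => F a η := rfl

/-- The action of a scalar matrix on a finite family of vectors. -/
def vecAct {m n : Type} [Fintype n] (A : Matrix m n ℂ) (v : n → H) (i : m) : H :=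
  ∑ j, A i j • v j

omit [CompleteSpace H] in
lemma vecAct_mul {m n k : Type} [Fintype n] [Fintype k] (A : Matrix m n ℂ) (B : Matrix n k ℂ)
    (v : k → H) : vecAct (A * B) v = vecAct A (vecAct B v) := by
  funext i
  simp only [vecAct, Matrix.mul_apply, Finset.sum_smul, Finset.smul_sum, smul_smul]
  exact Finset.sum_comm

omit [CompleteSpace H] in
lemma vecAct_one {n : Type} [Fintype n] [DecidableEq n] (v : n → H) :
    vecAct (1 : Matrix n n ℂ) v = v := by
  funext i
  simp [vecAct, Matrix.one_apply, ite_smul]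

open scoped MatrixOrder Matrix in
/-- The central estimate: if the sum of squares of the tests is below a scalar matrix, the sum
of squares of their images is below its diagonal value. -/
theorem MatBounded.scalar_bound {C : ℝ} (hF : MatBounded M F C) {m n : ℕ}
    (x : Fin m → Fin n → M) (B : Matrix (Fin n) (Fin n) ℂ)
    (hB : ∀ v : Fin n → H, ∑ k, ‖∑ i, (x k i : H →L[ℂ] H) (v i)‖ ^ 2 ≤
      (∑ i, ∑ j, B i j * ⟪v i, v j⟫_ℂ).re) (ξ : Fin n → H) :
    ∑ k, ‖∑ i, F (x k i) (ξ i)‖ ^ 2 ≤ C ^ 2 * (∑ i, ∑ j, B i j * ⟪ξ i, ξ j⟫_ℂ).re := by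
  rcases subsingleton_or_nontrivial H with hH | hH
  · simp [Subsingleton.elim _ (0 : H)]
  set B' : Matrix (Fin n) (Fin n) ℂ := (2 : ℂ)⁻¹ • (B + Bᴴ) with hB'
  have hre : ∀ v : Fin n → H,
      (∑ i, ∑ j, B' i j * ⟪v i, v j⟫_ℂ).re = (∑ i, ∑ j, B i j * ⟪v i, v j⟫_ℂ).re := by
    intro v
    have h1 : (∑ i, ∑ j, conj (B j i) * ⟪v i, v j⟫_ℂ).re =
        (∑ i, ∑ j, B i j * ⟪v i, v j⟫_ℂ).re := by
      rw [Finset.sum_comm, ← Complex.conj_re (∑ i, ∑ j, B i j * ⟪v i, v j⟫_ℂ)]
      simp only [map_sum, map_mul, inner_conj_symm]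
    have h2 : ∑ i, ∑ j, B' i j * ⟪v i, v j⟫_ℂ =
        (2 : ℂ)⁻¹ * (∑ i, ∑ j, B i j * ⟪v i, v j⟫_ℂ) +
          (2 : ℂ)⁻¹ * ∑ i, ∑ j, conj (B j i) * ⟪v i, v j⟫_ℂ := by
      simp only [hB', Finset.mul_sum, ← Finset.sum_add_distrib]
      refine Finset.sum_congr rfl fun i _ => Finset.sum_congr rfl fun j _ => ?_
      simp [Matrix.conjTranspose_apply]
      ring
    rw [h2]
    simp [h1]
    ring
  have hherm : B'.IsHermitian := by
    rw [Matrix.IsHermitian, hB', Matrix.conjTranspose_smul, Matrix.conjTranspose_add,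
      Matrix.conjTranspose_conjTranspose, add_comm Bᴴ]
    simp
  obtain ⟨e, he⟩ := exists_norm_eq H zero_le_one
  have hpsd : B'.PosSemidef := by
    refine Matrix.PosSemidef.of_dotProduct_mulVec_nonneg hherm fun a => ?_
    have hcalc : star a ⬝ᵥ B' *ᵥ a = ∑ i, ∑ j, B' i j * ⟪a i • e, a j • e⟫_ℂ := by
      simp only [dotProduct, Matrix.mulVec, Finset.mul_sum, inner_smul_left, inner_smul_right,
        inner_self_eq_norm_sq_to_K, he, Pi.star_apply]
      refine Finset.sum_congr rfl fun i _ => Finset.sum_congr rfl fun j _ => ?_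
      simp
      ring
    refine RCLike.nonneg_iff.2 ⟨?_, hherm.im_star_dotProduct_mulVec_self a⟩
    rw [RCLike.re_to_complex, hcalc, hre]
    exact le_trans (Finset.sum_nonneg fun k _ => sq_nonneg _) (hB _)
  refine le_of_forall_pos_le_add fun δ hδ => ?_
  obtain ⟨ε, hε, hεδ⟩ : ∃ ε : ℝ, 0 < ε ∧ C ^ 2 * (ε * ∑ i, ‖ξ i‖ ^ 2) ≤ δ := by
    refine ⟨δ / (C ^ 2 * (∑ i, ‖ξ i‖ ^ 2) + 1), div_pos hδ (by positivity), ?_⟩
    rw [div_mul_eq_mul_div, mul_div_assoc']
    rw [div_le_iff₀ (by positivity)]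
    nlinarith
  have hpd : (B' + (ε : ℂ) • (1 : Matrix (Fin n) (Fin n) ℂ)).PosDef :=
    Matrix.PosDef.posSemidef_add hpsd
      (Matrix.PosDef.one.smul (show (0 : ℂ) < (ε : ℂ) by exact_mod_cast hε))
  set P := B' + (ε : ℂ) • (1 : Matrix (Fin n) (Fin n) ℂ)
  set R := CFC.sqrt P with hR
  have hRR : Rᴴ * R = P := by
    have hnn : (0 : Matrix (Fin n) (Fin n) ℂ) ≤ P := hpd.posSemidef.nonneg
    rw [(Matrix.nonneg_iff_posSemidef.1 (CFC.sqrt_nonneg P)).isHermitian.eq, hR]
    exact CFC.sqrt_mul_sqrt_self P hnn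
  have hunit : IsUnit R := by
    have h1 : IsUnit (Rᴴ * R) := hRR ▸ hpd.isUnit
    rw [(Matrix.nonneg_iff_posSemidef.1 (CFC.sqrt_nonneg P)).isHermitian.eq] at h1
    exact ((Commute.refl R).isUnit_mul_iff.1 h1).1
  have hRinv : R * R⁻¹ = 1 := Matrix.mul_nonsing_inv R ((Matrix.isUnit_iff_isUnit_det R).1 hunit)
  have hRinv' : R⁻¹ * R = 1 := Matrix.nonsing_inv_mul R ((Matrix.isUnit_iff_isUnit_det R).1 hunit)
  have hnorm : ∀ v : Fin n → H,
      ∑ i, ‖vecAct R v i‖ ^ 2 = (∑ i, ∑ j, B i j * ⟪v i, v j⟫_ℂ).re + ε * ∑ i, ‖v i‖ ^ 2 := by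
    intro v
    have h1 : ∀ i, ((‖vecAct R v i‖ ^ 2 : ℝ) : ℂ) =
        ∑ k, ∑ l, conj (R i k) * R i l * ⟪v k, v l⟫_ℂ := by
      intro i
      have := inner_self_eq_norm_sq_to_K (𝕜 := ℂ) (vecAct R v i)
      push_cast
      refine this.symm.trans ?_
      simp only [vecAct, sum_inner]
      refine Finset.sum_congr rfl fun k _ => ?_
      rw [inner_smul_left, inner_sum, Finset.mul_sum]
      refine Finset.sum_congr rfl fun l _ => ?_
      rw [inner_smul_right]
      ring
    have h2 : ((∑ i, ‖vecAct R v i‖ ^ 2 : ℝ) : ℂ) = ∑ k, ∑ l, P k l * ⟪v k, v l⟫_ℂ := by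
      rw [Complex.ofReal_sum]
      simp only [h1]
      rw [Finset.sum_comm]
      refine Finset.sum_congr rfl fun k _ => ?_
      rw [Finset.sum_comm]
      refine Finset.sum_congr rfl fun l _ => ?_
      rw [← hRR, Matrix.mul_apply, Finset.sum_mul]
      exact Finset.sum_congr rfl fun i _ => by simp [Matrix.conjTranspose_apply]
    have h3 := congrArg Complex.re h2
    rw [Complex.ofReal_re] at h3
    rw [h3, ← hre v]
    simp only [P, Matrix.add_apply, Matrix.smul_apply, add_mul, Finset.sum_add_distrib,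
      Complex.add_re]
    congr 1
    rw [Complex.re_sum, Finset.mul_sum]
    refine Finset.sum_congr rfl fun k _ => ?_
    simp [Matrix.one_apply, inner_self_eq_norm_sq_to_K, ← Complex.ofReal_pow]
  let y : Fin m → Fin n → M := fun k j => ∑ i, R⁻¹ i j • x k i
  have hyv : ∀ (v : Fin n → H) k, ∑ j, (y k j : H →L[ℂ] H) (v j) =
      ∑ i, (x k i : H →L[ℂ] H) (vecAct R⁻¹ v i) := by
    intro v k
    simp only [y, vecAct, AddSubmonoidClass.coe_finsetSum, SetLike.val_smul, map_sum,
      map_smul, sum_apply, smul_apply]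
    exact Finset.sum_comm
  have hy : ∀ v : Fin n → H, ∑ k, ‖∑ j, (y k j : H →L[ℂ] H) (v j)‖ ^ 2 ≤ ∑ j, ‖v j‖ ^ 2 := by
    intro v
    simp only [hyv]
    refine (hB _).trans ?_
    have h := hnorm (vecAct R⁻¹ v)
    rw [← vecAct_mul, hRinv, vecAct_one] at h
    rw [h]
    exact le_add_of_nonneg_right (by positivity)
  have hFy : ∀ k, ∑ j, F (y k j) (vecAct R ξ j) = ∑ i, F (x k i) (ξ i) := by
    intro k
    have h : ∀ w : Fin n → H, ∑ j, F (y k j) (w j) = ∑ i, F (x k i) (vecAct R⁻¹ w i) := by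
      intro w
      simp only [y, vecAct, map_sum, map_smul, sum_apply, smul_apply]
      exact Finset.sum_comm
    rw [h, ← vecAct_mul, hRinv', vecAct_one]
  have hb := hF.bound m n y hy (vecAct R ξ)
  simp only [hFy, hnorm, mul_add] at hb
  linarith

variable (M) in
open Classical in
lemma quad_scal (v : H → H) (c : H × H →₀ ℂ) :
    quad M v (scal M c) = (c.sum fun p z => z * ⟪v p.1, v p.2⟫_ℂ).re := by
  induction c using Finsupp.induction_linear with
  | zero => simp
  | add a b ha hb =>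
    rw [map_add, map_add, ha, hb, Finsupp.sum_add_index (by simp) (fun _ _ _ _ => add_mul _ _ _),
      Complex.add_re]
  | single p z =>
    rw [scal_single, quad_single, Finsupp.sum_single_index (by simp)]
    simp [Algebra.algebraMap_eq_smul_one, inner_smul_right]

variable (M) in
/-- The functional on scalar matrices. -/
def diagVal : (H × H →₀ M) →ₗ[ℝ] ℝ := quad M id

open Classical in
/-- The test inequality for a list of families. -/
theorem MatBounded.tests_bound {C : ℝ} (hF : MatBounded M F C) (L : List (H →₀ M))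
    (c : H × H →₀ ℂ)
    (hc : ∀ v, (L.map fun t => ‖tv M v t‖ ^ 2).sum ≤ quad M v (scal M c)) :
    (L.map fun t => ‖fv F t‖ ^ 2).sum ≤ C ^ 2 * quad M id (scal M c) := by
  set S : Finset H := c.support.image Prod.fst ∪ c.support.image Prod.snd ∪
    (Finset.univ : Finset (Fin L.length)).biUnion (fun k => (L.get k).support) with hS
  have hSc : c.support ⊆ S ×ˢ S := fun p hp => Finset.mem_product.2
    ⟨by simp [hS, Finset.mem_image_of_mem Prod.fst hp],
      by simp [hS, Finset.mem_image_of_mem Prod.snd hp]⟩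
  have hSt : ∀ k, (L.get k).support ⊆ S := fun k η hη => by
    simp only [hS, Finset.mem_union, Finset.mem_biUnion]
    exact Or.inr ⟨k, Finset.mem_univ k, hη⟩
  let e : Fin S.card → H := fun i => (S.equivFin.symm i : H)
  have he : ∀ {β : Type u} [AddCommMonoid β] (g : H → β), ∑ i, g (e i) = ∑ η ∈ S, g η := by
    intro β _ g
    rw [← Finset.sum_coe_sort S g]
    exact S.equivFin.symm.sum_comp fun η => g η
  have heC : ∀ g : H → ℂ, ∑ i, g (e i) = ∑ η ∈ S, g η := fun g => by
    rw [← Finset.sum_coe_sort S g]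
    exact S.equivFin.symm.sum_comp fun η => g η
  have hinj : Function.Injective e := fun i j h => S.equivFin.symm.injective (Subtype.ext h)
  have hquad : ∀ v : H → H, quad M v (scal M c) =
      (∑ i, ∑ j, c (e i, e j) * ⟪v (e i), v (e j)⟫_ℂ).re := fun v => by
    rw [quad_scal]
    congr 1
    rw [Finsupp.sum_of_support_subset c hSc _ (by simp), Finset.sum_product,
      heC fun ξ => ∑ j, c (ξ, e j) * ⟪v ξ, v (e j)⟫_ℂ]
    exact Finset.sum_congr rfl fun ξ _ => (heC fun η => c (ξ, η) * ⟪v ξ, v η⟫_ℂ).symm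
  let x : Fin L.length → Fin S.card → M := fun k i => L.get k (e i)
  have htv : ∀ (k) (v : H → H), tv M v (L.get k) = ∑ i, (x k i : H →L[ℂ] H) (v (e i)) :=
    fun k v => by
      rw [tv_apply, Finsupp.sum_of_support_subset _ (hSt k) _ (by simp)]
      exact (he fun η => (L.get k η : H →L[ℂ] H) (v η)).symm
  have hfv : ∀ k, fv F (L.get k) = ∑ i, F (x k i) (e i) := fun k => by
    rw [fv_apply, Finsupp.sum_of_support_subset _ (hSt k) _ (by simp)]
    exact (he fun η => F (L.get k η) η).symm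
  have hsum : ∀ f : (H →₀ M) → ℝ, (L.map f).sum = ∑ k, f (L.get k) := fun f => by
    rw [← Fin.sum_univ_getElem (L.map f)]
    refine Fintype.sum_equiv (finCongr (List.length_map ..)) _ _ fun k => ?_
    simp
  rw [hsum, hquad id]
  simp only [hfv, id]
  refine hF.scalar_bound x (Matrix.of fun i j => c (e i, e j)) (fun v => ?_) e
  let w : H → H := fun η => Function.extend e v 0 η
  have hw : ∀ i, w (e i) = v i := fun i => hinj.extend_apply v 0 i
  have h := hc w
  rw [hsum, hquad w] at h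
  simpa only [htv, hw, Matrix.of_apply] using h

open Classical in
/-- The functional dominating `F`. -/
theorem MatBounded.exists_functional {C : ℝ} (hC : 0 < C) (hF : MatBounded M F C) :
    ∃ g : (H × H →₀ M) →ₗ[ℝ] ℝ, (∀ T, (∀ v, 0 ≤ quad M v T) → 0 ≤ g T) ∧
      (∀ c, g (scal M c) = quad M id (scal M c)) ∧
      ∀ t, ‖fv F t‖ ^ 2 ≤ C ^ 2 * g (outer M t t) := by
  let cone : PointedCone ℝ ((H × H →₀ M) × ℝ) :=
    { carrier := {p | ∃ L : List (H →₀ M), (∀ v, (L.map fun t => ‖tv M v t‖ ^ 2).sum ≤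
          quad M v p.1) ∧ -((L.map fun t => ‖fv F t‖ ^ 2).sum / C ^ 2) ≤ p.2}
      zero_mem' := ⟨[], by simp, by simp⟩
      add_mem' := by
        rintro p q ⟨L, hL, hL'⟩ ⟨L', hq, hq'⟩
        refine ⟨L ++ L', fun v => ?_, ?_⟩
        · simp only [List.map_append, List.sum_append, Prod.fst_add, map_add]
          exact add_le_add (hL v) (hq v)
        · simp only [List.map_append, List.sum_append, Prod.snd_add, add_div, neg_add]
          exact add_le_add hL' hq'
      smul_mem' := by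
        rintro ⟨r, hr⟩ p ⟨L, hL, hL'⟩
        refine ⟨L.map fun t => ((Real.sqrt r : ℝ) : ℂ) • t, fun v => ?_, ?_⟩
        · have h : ∀ t : H →₀ M, ‖tv M v (((Real.sqrt r : ℝ) : ℂ) • t)‖ ^ 2 =
              r * ‖tv M v t‖ ^ 2 := fun t => by
            rw [map_smul, norm_smul, mul_pow, Complex.norm_real, Real.norm_eq_abs, sq_abs,
              Real.sq_sqrt hr]
          simp only [List.map_map, Function.comp_def, h, List.sum_map_mul_left]
          show _ ≤ quad M v (r • p.1)
          rw [map_smul, smul_eq_mul]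
          exact mul_le_mul_of_nonneg_left (hL v) hr
        · have h : ∀ t : H →₀ M, ‖fv F (((Real.sqrt r : ℝ) : ℂ) • t)‖ ^ 2 =
              r * ‖fv F t‖ ^ 2 := fun t => by
            rw [map_smul, norm_smul, mul_pow, Complex.norm_real, Real.norm_eq_abs, sq_abs,
              Real.sq_sqrt hr]
          simp only [List.map_map, Function.comp_def, h, List.sum_map_mul_left]
          show _ ≤ r * p.2
          rw [mul_div_assoc, ← mul_neg]
          exact mul_le_mul_of_nonneg_left hL' hr }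
  let φ : ((H × H →₀ M) × ℝ) →ₗ.[ℝ] ℝ :=
    { domain := (LinearMap.range (scal M)).prod ⊤
      toFun := ((quad M id).comp (LinearMap.fst ℝ _ _) + LinearMap.snd ℝ _ _).domRestrict _ }
  have hnn : ∀ p : φ.domain, (p : (H × H →₀ M) × ℝ) ∈ cone → 0 ≤ φ p := by
    intro q hq
    obtain ⟨c, hc⟩ := q.2.1
    obtain ⟨L, hL, hL'⟩ := hq
    have hc' : scal M c = (q : (H × H →₀ M) × ℝ).1 := hc
    show 0 ≤ quad M id (q : (H × H →₀ M) × ℝ).1 + (q : (H × H →₀ M) × ℝ).2
    have h := hF.tests_bound L c (fun v => by rw [hc']; exact hL v)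
    rw [hc'] at h
    rw [← div_le_iff₀' (by positivity)] at h
    linarith
  have hdense : ∀ p, ∃ q : φ.domain, (q : (H × H →₀ M) × ℝ) + p ∈ cone := by
    rintro ⟨T, μ⟩
    set S : Finset H := T.support.image Prod.fst ∪ T.support.image Prod.snd with hS
    set K : ℝ := ∑ p ∈ T.support, ‖(T p : H →L[ℂ] H)‖ with hK
    let c : H × H →₀ ℂ := ∑ η ∈ S, Finsupp.single (η, η) (K : ℂ)
    refine ⟨⟨(scal M c, -μ), ⟨c, rfl⟩, Submodule.mem_top⟩, [], fun v => ?_, ?_⟩
    · simp only [List.map_nil, List.sum_nil, Prod.mk_add_mk, map_add]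
      have h1 : quad M v (scal M c) = K * ∑ η ∈ S, ‖v η‖ ^ 2 := by
        simp only [c, map_sum, scal_single, quad_single, Finset.mul_sum]
        refine Finset.sum_congr rfl fun η _ => ?_
        rw [Algebra.algebraMap_eq_smul_one, SetLike.val_smul, OneMemClass.coe_one, smul_apply, one_apply_eq_self, inner_smul_right, inner_self_eq_norm_sq_to_K]
        simp [← Complex.ofReal_pow]
      have h2 : -(quad M v T) ≤ K * ∑ η ∈ S, ‖v η‖ ^ 2 := by
        refine (neg_le_abs _).trans ?_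
        have h3 : quad M v T = ∑ p ∈ T.support, (⟪v p.1, (T p : H →L[ℂ] H) (v p.2)⟫_ℂ).re := rfl
        rw [h3, hK, Finset.sum_mul]
        refine (Finset.abs_sum_le_sum_abs _ _).trans (Finset.sum_le_sum fun p hp => ?_)
        refine (Complex.abs_re_le_norm _).trans ((norm_inner_le_norm _ _).trans ?_)
        have hmem : ∀ η ∈ S, ‖v η‖ ^ 2 ≤ ∑ ζ ∈ S, ‖v ζ‖ ^ 2 := fun η hη =>
          Finset.single_le_sum (f := fun ζ => ‖v ζ‖ ^ 2) (fun ζ _ => sq_nonneg _) hη
        have h4 := hmem p.1 (by simp [hS, Finset.mem_image_of_mem Prod.fst hp])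
        have h5 := hmem p.2 (by simp [hS, Finset.mem_image_of_mem Prod.snd hp])
        calc ‖v p.1‖ * ‖(T p : H →L[ℂ] H) (v p.2)‖
            ≤ ‖v p.1‖ * (‖(T p : H →L[ℂ] H)‖ * ‖v p.2‖) :=
              mul_le_mul_of_nonneg_left (ContinuousLinearMap.le_opNorm _ _) (norm_nonneg _)
          _ = ‖(T p : H →L[ℂ] H)‖ * (‖v p.1‖ * ‖v p.2‖) := by ring
          _ ≤ ‖(T p : H →L[ℂ] H)‖ * ∑ ζ ∈ S, ‖v ζ‖ ^ 2 :=
              mul_le_mul_of_nonneg_left (by nlinarith [sq_nonneg (‖v p.1‖ - ‖v p.2‖)])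
                (norm_nonneg _)
      linarith
    · simp
  obtain ⟨G, hG, hG0⟩ := riesz_extension cone φ hnn hdense
  refine ⟨G.comp (LinearMap.inl ℝ _ _), fun T hT => ?_, fun c => ?_, fun t => ?_⟩
  · exact hG0 (T, 0) ⟨[], by simpa using hT, by simp⟩
  · have h := hG ⟨(scal M c, 0), ⟨c, rfl⟩, Submodule.mem_top⟩
    exact h.trans (add_zero _)
  · have h1 := hG0 (outer M t t, -(‖fv F t‖ ^ 2 / C ^ 2))
      ⟨[t], fun v => by simp [quad_outer, ← Complex.ofReal_pow], by simp⟩
    have h2 := hG ⟨(0, -(‖fv F t‖ ^ 2 / C ^ 2)), ⟨0, map_zero _⟩, Submodule.mem_top⟩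
    have h3 : ((outer M t t, -(‖fv F t‖ ^ 2 / C ^ 2)) : (H × H →₀ M) × ℝ) =
        (outer M t t, 0) + (0, -(‖fv F t‖ ^ 2 / C ^ 2)) := by simp
    rw [h3, map_add, h2] at h1
    have h4 : φ ⟨(0, -(‖fv F t‖ ^ 2 / C ^ 2)), ⟨0, map_zero _⟩, Submodule.mem_top⟩ =
        -(‖fv F t‖ ^ 2 / C ^ 2) :=
      show quad M id 0 + _ = _ by rw [map_zero, zero_add]; rfl
    rw [h4] at h1
    show _ ≤ C ^ 2 * G (outer M t t, 0)
    rw [← div_le_iff₀' (by positivity)]
    linarith

end

end Vale.Agent.P082.CB
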