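import Mathlib.Analysis.InnerProductSpace.Completion
import Mathlib.Topology.Algebra.LinearMapCompletion
import Mathlib.Analysis.Normed.Operator.Extend
import Vale.Agent.P082.CB.GaugeForm

/-!
# The gauge of a matrix-bounded linear map

`F x ξ = X (act x (W ξ))` with a Hilbert space `K`, a unital representation of `M` on `K` which
maps columns of norm at most one to columns of norm at most one, an isometry `W` with total
orbit, and `‖X‖ ≤ C`.
-/

open scoped InnerProductSpace ComplexConjugate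
open Complex UniformSpace

namespace Vale.Agent.P082.CB

universe u

variable {H : Type u} [NormedAddCommGroup H] [InnerProductSpace ℂ H] [CompleteSpace H]

noncomputable section

/-- A gauge of `F`. -/
structure Gauge (M : StarSubalgebra ℂ (H →L[ℂ] H)) (F : M →ₗ[ℂ] (H →L[ℂ] H)) (C : ℝ) :
    Type (u + 1) where
  /-- The space. -/
  K : Type u
  [nacg : NormedAddCommGroup K]
  [ips : InnerProductSpace ℂ K]
  [cs : CompleteSpace K]
  /-- The representation. -/
  act : M → K →L[ℂ] K
  act_add : ∀ a b, act (a + b) = act a + act b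
  act_smul : ∀ (c : ℂ) a, act (c • a) = c • act a
  act_mul : ∀ a b, act (a * b) = (act a).comp (act b)
  act_one : act 1 = ContinuousLinearMap.id ℂ K
  act_col : ∀ {ι : Type u} (s : Finset ι) (m : ι → M),
    (∀ ξ : H, ∑ i ∈ s, ‖(m i : H →L[ℂ] H) ξ‖ ^ 2 ≤ ‖ξ‖ ^ 2) →
      ∀ ζ, ∑ i ∈ s, ‖act (m i) ζ‖ ^ 2 ≤ ‖ζ‖ ^ 2
  /-- The isometry. -/
  W : H →L[ℂ] K
  norm_W : ∀ ξ, ‖W ξ‖ = ‖ξ‖
  total : (Submodule.span ℂ {ζ | ∃ a ξ, ζ = act a (W ξ)}).topologicalClosure = ⊤
  /-- The left leg. -/
  X : K →L[ℂ] H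
  norm_X : ∀ ζ, ‖X ζ‖ ≤ C * ‖ζ‖
  eq : ∀ a ξ, X (act a (W ξ)) = F a ξ

attribute [instance] Gauge.nacg Gauge.ips Gauge.cs

variable {M : StarSubalgebra ℂ (H →L[ℂ] H)}

/-- A functional as produced by `MatBounded.exists_functional`. -/
structure Form (M : StarSubalgebra ℂ (H →L[ℂ] H)) where
  /-- The functional. -/
  g : (H × H →₀ M) →ₗ[ℝ] ℝ
  pos : ∀ T, (∀ v, 0 ≤ quad M v T) → 0 ≤ g T
  scalar : ∀ c, g (scal M c) = quad M id (scal M c)

variable (Φ : Form M)

lemma Form.eq_of_quad {S T : H × H →₀ M} (h : ∀ v, quad M v S = quad M v T) : Φ.g S = Φ.g T := by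
  have h₁ := Φ.pos (S - T) fun v => by rw [map_sub, h v, sub_self]
  have h₂ := Φ.pos (T - S) fun v => by rw [map_sub, h v, sub_self]
  rw [map_sub] at h₁ h₂
  linarith

lemma Form.le_of_quad {S T : H × H →₀ M} (h : ∀ v, quad M v S ≤ quad M v T) : Φ.g S ≤ Φ.g T := by
  have h₁ := Φ.pos (T - S) fun v => by rw [map_sub, sub_nonneg]; exact h v
  rw [map_sub] at h₁
  linarith

/-- The sesquilinear form. -/
def Form.inner' (t t' : H →₀ M) : ℂ :=
  ⟨Φ.g (outer M t t'), Φ.g (outer M (I • t) t')⟩

lemma Form.symm (t t' : H →₀ M) : Φ.g (outer M t t') = Φ.g (outer M t' t) :=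
  Φ.eq_of_quad fun v => by
    rw [quad_outer, quad_outer, ← inner_conj_symm, Complex.conj_re]

lemma Form.I_left (t t' : H →₀ M) : Φ.g (outer M (I • t) t') = -Φ.g (outer M t (I • t')) := by
  rw [← map_neg]
  refine Φ.eq_of_quad fun v => ?_
  rw [map_neg, quad_outer, quad_outer, map_smul, map_smul, inner_smul_left, inner_smul_right]
  simp

/-- The space of finitely supported families with the form. -/
def Pre (_Φ : Form M) : Type u := H →₀ M

instance : AddCommGroup (Pre Φ) := inferInstanceAs (AddCommGroup (H →₀ M))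

instance : Module ℂ (Pre Φ) := inferInstanceAs (Module ℂ (H →₀ M))

/-- The identification. -/
def toPre : (H →₀ M) ≃ₗ[ℂ] Pre Φ := LinearEquiv.refl ℂ _

/-- The pre-inner product. -/
@[reducible] def preCore : PreInnerProductSpace.Core ℂ (Pre Φ) where
  inner a b := Φ.inner' ((toPre Φ).symm a) ((toPre Φ).symm b)
  conj_inner_symm a b := by
    refine Complex.ext ?_ ?_
    · simp [Form.inner', Φ.symm]
    · simp only [Form.inner', Complex.conj_im]
      rw [Φ.I_left ((toPre Φ).symm b), Φ.symm ((toPre Φ).symm b), neg_neg]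
  re_inner_nonneg a := Φ.pos _ fun v => by
    rw [quad_outer, inner_self_eq_norm_sq_to_K]
    simp [← Complex.ofReal_pow]
  add_left a b c := by
    have h : ∀ t₁ t₂ t : H →₀ M,
        Φ.g (outer M (t₁ + t₂) t) = Φ.g (outer M t₁ t) + Φ.g (outer M t₂ t) := fun t₁ t₂ t => by
      rw [← map_add]
      exact Φ.eq_of_quad fun v => by simp [quad_outer, inner_add_left]
    refine Complex.ext ?_ ?_
    · simp [Form.inner', h]
    · simp [Form.inner', smul_add, h]
  smul_left a b r := by
    have h : ∀ (r : ℂ) (t t' : H →₀ M), Φ.g (outer M (r • t) t') =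
        r.re * Φ.g (outer M t t') + r.im * Φ.g (outer M (I • t) t') := fun r t t' => by
      rw [← smul_eq_mul, ← smul_eq_mul, ← map_smul, ← map_smul, ← map_add]
      refine Φ.eq_of_quad fun v => ?_
      simp [quad_outer, inner_smul_left, Complex.mul_re]
    refine Complex.ext ?_ ?_
    · simp [Form.inner', h r]
    · simp only [Form.inner', map_smul, smul_smul, Complex.mul_im, Complex.conj_re,
        Complex.conj_im]
      rw [h (I * r)]
      simp
      ring

instance : SeminormedAddCommGroup (Pre Φ) :=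
  InnerProductSpace.Core.toSeminormedAddCommGroup (c := preCore Φ)

instance : InnerProductSpace ℂ (Pre Φ) := InnerProductSpace.ofCore (preCore Φ)

lemma norm_toPre_sq (t : H →₀ M) : ‖toPre Φ t‖ ^ 2 = Φ.g (outer M t t) := by
  rw [← inner_self_eq_norm_sq (𝕜 := ℂ)]
  rfl

/-- Left multiplication on families. -/
def mulT (m : M) : (H →₀ M) →ₗ[ℂ] (H →₀ M) :=
  Finsupp.mapRange.linearMap (LinearMap.mulLeft ℂ m)

lemma tv_mulT (m : M) (v : H → H) (t : H →₀ M) :
    tv M v (mulT m t) = (m : H →L[ℂ] H) (tv M v t) := by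
  induction t using Finsupp.induction_linear with
  | zero => simp
  | add a b ha hb => simp [ha, hb]
  | single η a => simp [mulT, tv_single]

lemma norm_mulT_col {ι : Type u} (s : Finset ι) (m : ι → M)
    (h : ∀ ξ : H, ∑ i ∈ s, ‖(m i : H →L[ℂ] H) ξ‖ ^ 2 ≤ ‖ξ‖ ^ 2) (t : H →₀ M) :
    ∑ i ∈ s, ‖toPre Φ (mulT (m i) t)‖ ^ 2 ≤ ‖toPre Φ t‖ ^ 2 := by
  simp only [norm_toPre_sq, ← map_sum]
  refine Φ.le_of_quad fun v => ?_
  simp only [map_sum, quad_outer, tv_mulT, inner_self_eq_norm_sq_to_K]
  simpa [← Complex.ofReal_pow] using h (tv M v t)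

lemma norm_mulT_le (m : M) (t : H →₀ M) :
    ‖toPre Φ (mulT m t)‖ ≤ ‖(m : H →L[ℂ] H)‖ * ‖toPre Φ t‖ := by
  rw [← sq_le_sq₀ (norm_nonneg _) (by positivity), mul_pow, norm_toPre_sq, norm_toPre_sq,
    ← smul_eq_mul, ← map_smul]
  refine Φ.le_of_quad fun v => ?_
  simp only [map_smul, quad_outer, tv_mulT, inner_self_eq_norm_sq_to_K, smul_eq_mul]
  simp only [← Complex.ofReal_pow, Complex.coe_algebraMap, Complex.ofReal_re]
  rw [← mul_pow]
  exact pow_le_pow_left₀ (norm_nonneg _) (ContinuousLinearMap.le_opNorm _ _) 2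

/-- Left multiplication on the pre-space. -/
def actPre (m : M) : Pre Φ →L[ℂ] Pre Φ :=
  ((toPre Φ).toLinearMap ∘ₗ mulT m ∘ₗ (toPre Φ).symm.toLinearMap).mkContinuous
    ‖(m : H →L[ℂ] H)‖ fun a => norm_mulT_le Φ m ((toPre Φ).symm a)

lemma actPre_apply (m : M) (t : H →₀ M) : actPre Φ m (toPre Φ t) = toPre Φ (mulT m t) := rfl

open Classical in
lemma single_scalar (ξ : H) : Finsupp.single ξ (1 : M) =
    Finsupp.mapRange.linearMap (Algebra.linearMap ℂ M) (Finsupp.single ξ (1 : ℂ)) := by
  simp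

lemma norm_scalar (a : H →₀ ℂ) :
    ‖toPre Φ (Finsupp.mapRange.linearMap (Algebra.linearMap ℂ M) a)‖ =
      ‖Finsupp.linearCombination ℂ id a‖ := by
  rw [← sq_eq_sq₀ (norm_nonneg _) (norm_nonneg _), norm_toPre_sq, outer_scalar, Φ.scalar,
    ← outer_scalar, quad_outer, inner_self_eq_norm_sq_to_K]
  have h : tv M id (Finsupp.mapRange.linearMap (Algebra.linearMap ℂ M) a) =
      Finsupp.linearCombination ℂ id a := by
    rw [Finsupp.linearCombination_apply, tv_apply, Finsupp.mapRange.linearMap_apply, Finsupp.sum_mapRange_index (by simp)]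
    simp [Algebra.algebraMap_eq_smul_one]
  rw [h]
  simp [← Complex.ofReal_pow]

/-- The completed space. -/
abbrev Kspace := Completion (Pre Φ)

/-- The class of a family. -/
def cls : (H →₀ M) →ₗ[ℂ] Kspace Φ :=
  (Completion.toComplL : Pre Φ →L[ℂ] Kspace Φ).toLinearMap ∘ₗ (toPre Φ).toLinearMap

lemma norm_cls (t : H →₀ M) : ‖cls Φ t‖ = ‖toPre Φ t‖ := Completion.norm_coe _

/-- The isometry of `H`. -/
def Wmap : H →L[ℂ] Kspace Φ :=
  ({ toFun := fun ξ => cls Φ (Finsupp.single ξ 1)
     map_add' := fun ξ η => by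
       rw [← sub_eq_zero, ← map_add, ← map_sub, ← norm_eq_zero, norm_cls, single_scalar,
         single_scalar, single_scalar, ← map_add, ← map_sub, norm_scalar]
       simp
     map_smul' := fun c ξ => by
       rw [RingHom.id_apply, ← sub_eq_zero, ← map_smul, ← map_sub, ← norm_eq_zero, norm_cls,
         single_scalar, single_scalar, ← map_smul, ← map_sub, norm_scalar]
       simp
     : H →ₗ[ℂ] Kspace Φ }).mkContinuous 1 fun ξ => by
    show ‖cls Φ (Finsupp.single ξ 1)‖ ≤ 1 * ‖ξ‖
    rw [norm_cls, single_scalar, norm_scalar]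
    simp

lemma Wmap_apply (ξ : H) : Wmap Φ ξ = cls Φ (Finsupp.single ξ 1) := rfl

lemma completion_act_cls (m : M) (t : H →₀ M) :
    (actPre Φ m).completion (cls Φ t) = cls Φ (mulT m t) :=
  ContinuousLinearMap.completion_apply_coe _ _

lemma act_ext {u v : Kspace Φ →L[ℂ] Kspace Φ} (h : ∀ t, u (cls Φ t) = v (cls Φ t)) : u = v := by
  refine ContinuousLinearMap.ext fun x => ?_
  induction x using Completion.induction_on with
  | hp => exact isClosed_eq u.continuous v.continuous
  | ih a => exact h ((toPre Φ).symm a)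

variable {F : M →ₗ[ℂ] (H →L[ℂ] H)} {C : ℝ}

/-- Every matrix-bounded map has a gauge. -/
theorem MatBounded.nonempty_gauge (hC : 0 < C) (hF : MatBounded M F C) :
    Nonempty (Gauge M F C) := by
  obtain ⟨g, hg, hg', hb⟩ := hF.exists_functional hC
  let Φ : Form M := ⟨g, hg, hg'⟩
  have hXb : ∀ a : Pre Φ, ‖fv F ((toPre Φ).symm a)‖ ≤ C * ‖a‖ := fun a => by
    rw [← sq_le_sq₀ (norm_nonneg _) (by positivity), mul_pow]
    refine (hb _).trans_eq ?_
    rw [show ‖a‖ = ‖toPre Φ ((toPre Φ).symm a)‖ by rw [LinearEquiv.apply_symm_apply],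
      norm_toPre_sq]
  let Xp : Pre Φ →L[ℂ] H :=
    (fv F ∘ₗ (toPre Φ).symm.toLinearMap).mkContinuous C hXb
  let X : Kspace Φ →L[ℂ] H := Xp.extend Completion.toComplL
  have hX : ∀ t, X (cls Φ t) = fv F t := fun t =>
    ContinuousLinearMap.extend_eq Xp (Completion.denseRange_coe)
      (Completion.isUniformInducing_coe _) (toPre Φ t)
  refine ⟨{
    K := Kspace Φ
    act := fun m => (actPre Φ m).completion
    act_add := fun a b => act_ext Φ fun t => by
      simp only [add_apply, completion_act_cls, ← map_add]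
      congr 1
      ext η
      simp [mulT, add_mul]
    act_smul := fun c a => act_ext Φ fun t => by
      simp only [smul_apply, completion_act_cls, ← map_smul]
      congr 1
      ext η
      simp [mulT]
    act_mul := fun a b => act_ext Φ fun t => by
      simp only [ContinuousLinearMap.comp_apply, completion_act_cls]
      congr 1
      ext η
      simp [mulT]
    act_one := act_ext Φ fun t => by
      simp only [completion_act_cls, ContinuousLinearMap.id_apply]
      congr 1
      ext η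
      simp [mulT]
    act_col := fun s m h ζ => ?_
    W := Wmap Φ
    norm_W := fun ξ => by
      rw [Wmap_apply, norm_cls, single_scalar, norm_scalar]
      simp
    total := ?_
    X := X
    norm_X := fun ζ => ?_
    eq := fun a ξ => ?_ }⟩
  · induction ζ using Completion.induction_on with
    | hp => exact isClosed_le (by fun_prop) (by fun_prop)
    | ih x =>
      obtain ⟨t, rfl⟩ := (toPre Φ).surjective x
      show ∑ i ∈ s, ‖(actPre Φ (m i)).completion (cls Φ t)‖ ^ 2 ≤ ‖cls Φ t‖ ^ 2
      simp only [completion_act_cls, norm_cls]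
      exact norm_mulT_col Φ s m h t
  · rw [← Submodule.dense_iff_topologicalClosure_eq_top]
    refine Completion.denseRange_coe.mono ?_
    rintro _ ⟨x, rfl⟩
    obtain ⟨t, rfl⟩ := (toPre Φ).surjective x
    show cls Φ t ∈ Submodule.span ℂ _
    rw [← t.sum_single, map_finsuppSum]
    refine Submodule.sum_mem _ fun η _ => Submodule.subset_span ⟨t η, η, ?_⟩
    rw [Wmap_apply, completion_act_cls]
    simp [mulT]
  · induction ζ using Completion.induction_on with
    | hp => exact isClosed_le (by fun_prop) (by fun_prop)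
    | ih x =>
      obtain ⟨t, rfl⟩ := (toPre Φ).surjective x
      show ‖X (cls Φ t)‖ ≤ C * ‖cls Φ t‖
      rw [hX, norm_cls]
      exact hXb (toPre Φ t)
  · rw [Wmap_apply, completion_act_cls, hX]
    simp [mulT, fv]

end

end Vale.Agent.P082.CB
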