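import Vale.Agent.P082.F.Goals
import Vale.Agent.P082.CB.FixedPoint

/-!
# A cocycle which is completely bounded in its first argument is a coboundary
-/

open scoped InnerProductSpace
open Function (update)

namespace Vale.Agent.P082.CB

universe u

variable {H : Type u} [NormedAddCommGroup H] [InnerProductSpace ℂ H] [CompleteSpace H]
variable {M : VonNeumannAlgebra H} {k : ℕ}

noncomputable section

/-- The first argument of a cochain as a linear map. -/
def slice {f : Coch H (k + 1)} {B : ℝ} (hf : IsCochain M f B) (y : Tup M k) :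
    M.toStarSubalgebra →ₗ[ℂ] (H →L[ℂ] H) where
  toFun a := f (Fin.cons (a : H →L[ℂ] H) y.1)
  map_add' a a' := by
    simpa using hf.map_add _ (y.2.cons (zero_mem M)) 0 _ a.2 _ a'.2
  map_smul' c a := by
    simpa using hf.map_smul _ (y.2.cons (zero_mem M)) 0 c _ a.2

/-- The norm allowed for the gauge: the bound, or one where the bound vanishes. -/
def bnd (C : ℝ) (y : Tup M k) : ℝ := if C * ∏ i, ‖y.1 i‖ = 0 then 1 else C * ∏ i, ‖y.1 i‖

lemma bnd_pos {C : ℝ} (hC : 0 ≤ C) (y : Tup M k) : 0 < bnd C y := by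
  unfold bnd
  split_ifs with h
  · exact one_pos
  · exact lt_of_le_of_ne (mul_nonneg hC (Finset.prod_nonneg fun _ _ => norm_nonneg _)) (Ne.symm h)

lemma matBounded_slice {f : Coch H (k + 1)} {B C : ℝ} (hf : IsCochain M f B)
    (hcb : CBFirst M f C) (y : Tup M k) :
    MatBounded M.toStarSubalgebra (slice hf y) (bnd C y) := by
  refine ⟨fun m n x hx v => ?_⟩
  refine (hcb y.1 y.2 m n (fun i j => (x i j : H →L[ℂ] H)) (fun i j => (x i j).2) hx v).trans ?_
  refine mul_le_mul_of_nonneg_right ?_ (Finset.sum_nonneg fun _ _ => sq_nonneg _)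
  unfold bnd
  split_ifs with h
  · simp [h]
  · exact le_rfl

lemma eq_zero_of_cbFirst {f : Coch H (k + 1)} {B C : ℝ} (hf : IsCochain M f B)
    (hcb : CBFirst M f C) (y : Tup M k) (h0 : C * ∏ i, ‖y.1 i‖ = 0) (a : M.toStarSubalgebra) :
    f (Fin.cons (a : H →L[ℂ] H) y.1) = 0 := by
  set r : ℂ := (((‖(a : H →L[ℂ] H)‖ + 1)⁻¹ : ℝ) : ℂ) with hr
  have hpos : (0 : ℝ) < ‖(a : H →L[ℂ] H)‖ + 1 := by positivity
  have hr0 : r ≠ 0 := by
    rw [hr, Complex.ofReal_ne_zero]
    exact inv_ne_zero hpos.ne'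
  refine ContinuousLinearMap.ext fun ξ => ?_
  have hc : IsMatContraction (fun _ _ : Fin 1 => ((r • a : M.toStarSubalgebra) : H →L[ℂ] H)) := by
    intro e
    simp only [Fin.sum_univ_one, SetLike.val_smul]
    refine pow_le_pow_left₀ (norm_nonneg _) ((ContinuousLinearMap.le_opNorm _ _).trans ?_) 2
    refine mul_le_of_le_one_left (norm_nonneg _) ?_
    rw [norm_smul, hr, Complex.norm_real, Real.norm_eq_abs, abs_of_pos (inv_pos.2 hpos),
      inv_mul_le_iff₀ hpos]
    linarith
  have h := hcb y.1 y.2 1 1 _ (fun _ _ => (r • a).2) hc (fun _ => ξ)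
  simp only [Fin.sum_univ_one, h0] at h
  have h1 : slice hf y (r • a) ξ = 0 := by
    refine norm_eq_zero.1 (le_antisymm ?_ (norm_nonneg _))
    show ‖f (Fin.cons ((r • a : M.toStarSubalgebra) : H →L[ℂ] H) y.1) ξ‖ ≤ 0
    nlinarith [norm_nonneg (f (Fin.cons ((r • a : M.toStarSubalgebra) : H →L[ℂ] H) y.1) ξ)]
  rw [map_smul, smul_apply, smul_eq_zero] at h1
  exact h1.resolve_left hr0

/-- The theorem. -/
theorem cbVanish : F.CBVanishGoal.{u} := by
  intro H _ _ _ M k f B C hC hf hfc hcb
  classical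
  let S : Sys M k :=
    { f := f
      C := C
      C_nonneg := hC
      F := slice hf
      F_apply := fun _ _ => rfl
      B := bnd C
      G := fun y => Classical.choice
        ((matBounded_slice hf hcb y).nonempty_gauge (bnd_pos hC y)) }
  let X₀ : S.Leg := fun y => if S.Cy y = 0 then 0 else (S.G y).X
  have hpsi : ∀ (y : Tup M k) (a : M.toStarSubalgebra),
      S.psi X₀ y a = f (Fin.cons (a : H →L[ℂ] H) y.1) := by
    intro y a
    by_cases h : S.Cy y = 0
    · rw [eq_zero_of_cbFirst hf hcb y h a]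
      ext ξ
      simp [Sys.psi_apply, X₀, h]
    · ext ξ
      simp only [Sys.psi_apply, X₀, if_neg h, Gauge.eq]
      exact congrArg (fun T : H →L[ℂ] H => T ξ) (S.F_apply y a)
  have h₀ : S.Adm X₀ := by
    refine ⟨fun y ζ => ?_, fun y a => ?_, fun y i x x' a => ?_, fun y i c x a => ?_,
      fun a u y => ?_⟩
    · by_cases h : S.Cy y = 0
      · simp [X₀, h]
      · simp only [X₀, if_neg h]
        refine ((S.G y).norm_X ζ).trans_eq ?_
        congr 1
        exact if_neg h
    · rw [hpsi]; exact hf.mem _ (y.2.cons a.2)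
    · simp only [hpsi, Tup.upd, Fin.cons_update]
      exact hf.map_add _ (y.2.cons a.2) i.succ _ x.2 _ x'.2
    · simp only [hpsi, Tup.upd, Fin.cons_update]
      exact hf.map_smul _ (y.2.cons a.2) i.succ c _ x.2
    · have h := hfc _ ((y.2.cons u.2).cons a.2)
      simp only [hd_apply, Fin.sum_univ_succ, Fin.cons_zero, Fin.tail_cons, Fin.castSucc_zero,
        contractNth_cons_zero, contractNth_cons_succ, init_cons, Fin.val_zero, Fin.val_succ,
        ← Fin.succ_last, Fin.cons_succ, pow_succ, pow_zero, mul_neg, mul_one, neg_smul,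
        one_smul, neg_neg, Pi.zero_apply] at h
      simp only [Sys.relSide, hpsi, Tup.pre, Tup.contr, Tup.init, MulMemClass.coe_mul]
      rw [← sub_eq_zero, ← neg_eq_zero]
      refine Eq.trans ?_ h
      abel
  obtain ⟨X, hX, hmul⟩ := S.exists_mul h₀
  refine ⟨fun y => if hy : Args M y then S.psi X ⟨y, hy⟩ 1 else 0,
    ⟨fun a ha => ?_, fun a ha i x hx x' hx' => ?_, fun a ha i c x hx => ?_, fun a ha => ?_⟩,
    fun w hw => ?_⟩
  · simp only [dif_pos ha]; exact hX.mem _ _
  · simp only [dif_pos (ha.update i (add_mem hx hx')), dif_pos (ha.update i hx),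
      dif_pos (ha.update i hx')]
    exact hX.map_add ⟨a, ha⟩ i ⟨x, hx⟩ ⟨x', hx'⟩ 1
  · simp only [dif_pos (ha.update i (mem_smul c hx)), dif_pos (ha.update i hx)]
    exact hX.map_smul ⟨a, ha⟩ i c ⟨x, hx⟩ 1
  · simp only [dif_pos ha]
    refine ContinuousLinearMap.opNorm_le_bound _
      (mul_nonneg hC (Finset.prod_nonneg fun _ _ => norm_nonneg _)) fun ξ => ?_
    rw [Sys.psi_apply, (S.G _).act_one]
    refine (hX.norm_le _ _).trans_eq ?_
    rw [ContinuousLinearMap.id_apply, (S.G _).norm_W]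
    rfl
  · obtain ⟨x, b, rfl⟩ : ∃ x b, w = Fin.cons x b :=
      ⟨w 0, Fin.tail w, (Fin.cons_self_tail w).symm⟩
    have hx : x ∈ M := by simpa using hw 0
    have hb : Args M b := fun i => by simpa using hw i.succ
    have h := hX.rel 1 ⟨x, hx⟩ ⟨b, hb⟩
    rw [Sys.relSide, one_mul, hmul] at h
    rw [hd_apply]
    simp only [Fin.cons_zero, Fin.tail_cons, dif_pos hb, dif_pos hw.init,
      dif_pos (hw.contract _), Tup.pre, Tup.contr, Tup.init] at h ⊢
    rw [OneMemClass.coe_one, one_mul] at h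
    refine Eq.trans ?_ h
    simp only [pow_succ, mul_neg, mul_one, neg_smul, Finset.sum_neg_distrib]
    abel

end

end Vale.Agent.P082.CB
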